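import Mathlib

/-!
# Importance sampling with a Chernoff bound (finite, elementary)
-/

namespace Vale.Agent.Lib.P249

open Finset

variable {K : Type*} [Fintype K]

/-- product weight of a tuple of sampled coordinates -/
noncomputable def tw (π : K → ℝ) {d : ℕ} (κ : Fin d → K) : ℝ := ∏ t, π (κ t)

omit [Fintype K] in
lemma tw_nonneg (π : K → ℝ) (h0 : ∀ k, 0 ≤ π k) {d : ℕ} (κ : Fin d → K) : 0 ≤ tw π κ :=
  Finset.prod_nonneg (fun t _ => h0 (κ t))

lemma sum_tw_mul [DecidableEq K] (π : K → ℝ) (F : K → ℝ) (d : ℕ) :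
    ∑ κ : Fin d → K, tw π κ * ∏ t, F (κ t) = (∑ k, π k * F k) ^ d := by
  have h := Fintype.prod_sum (fun (_ : Fin d) (k : K) => π k * F k)
  simp only [Finset.prod_const, Finset.card_univ, Fintype.card_fin] at h
  rw [h]
  refine Finset.sum_congr rfl (fun κ _ => ?_)
  unfold tw
  rw [Finset.prod_mul_distrib]

lemma sum_tw [DecidableEq K] (π : K → ℝ) (h1 : ∑ k, π k = 1) (d : ℕ) :
    ∑ κ : Fin d → K, tw π κ = 1 := by
  have h := sum_tw_mul π (fun _ => (1 : ℝ)) d
  simpa [h1] using h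

/-- one sided tail bound -/
lemma tail_bound [DecidableEq K] (π : K → ℝ) (h0 : ∀ k, 0 ≤ π k) (h1 : ∑ k, π k = 1)
    (y : K → ℝ) (hy0 : ∀ k, 0 ≤ y k) (hy1 : ∀ k, y k ≤ 1) (μ : ℝ)
    (hμ : ∑ k, π k * y k = μ) (s : ℝ) (hs : -1 < s) (d : ℕ) (θ : ℝ) :
    (∑ κ : Fin d → K, if (1 + s) ^ θ ≤ (1 + s) ^ (∑ t, y (κ t)) then tw π κ else 0)
      ≤ Real.exp (s * μ * d) / (1 + s) ^ θ := by
  have hb : 0 < 1 + s := by linarith
  have hbθ : 0 < (1 + s) ^ θ := Real.rpow_pos_of_pos hb θ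
  rw [le_div_iff₀ hbθ, Finset.sum_mul]
  have hmgf : ∑ κ : Fin d → K, tw π κ * (1 + s) ^ (∑ t, y (κ t))
      = (∑ k, π k * (1 + s) ^ (y k)) ^ d := by
    rw [← sum_tw_mul]
    refine Finset.sum_congr rfl (fun κ _ => ?_)
    rw [Real.rpow_sum_of_pos hb]
  have hstep : ∑ k, π k * (1 + s) ^ (y k) ≤ 1 + s * μ := by
    calc ∑ k, π k * (1 + s) ^ (y k) ≤ ∑ k, π k * (1 + y k * s) := by
          refine Finset.sum_le_sum (fun k _ => ?_)
          exact mul_le_mul_of_nonneg_left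
            (rpow_one_add_le_one_add_mul_self hs.le (hy0 k) (hy1 k)) (h0 k)
      _ = ∑ k, π k + s * ∑ k, π k * y k := by
          rw [Finset.mul_sum, ← Finset.sum_add_distrib]
          refine Finset.sum_congr rfl (fun k _ => ?_)
          ring
      _ = 1 + s * μ := by rw [h1, hμ]
  have hnn : 0 ≤ ∑ k, π k * (1 + s) ^ (y k) :=
    Finset.sum_nonneg (fun k _ => mul_nonneg (h0 k) (Real.rpow_pos_of_pos hb _).le)
  calc ∑ κ : Fin d → K, (if (1 + s) ^ θ ≤ (1 + s) ^ (∑ t, y (κ t)) then tw π κ else 0) * (1 + s) ^ θ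
      ≤ ∑ κ : Fin d → K, tw π κ * (1 + s) ^ (∑ t, y (κ t)) := by
        refine Finset.sum_le_sum (fun κ _ => ?_)
        split_ifs with h
        · exact mul_le_mul_of_nonneg_left h (tw_nonneg π h0 κ)
        · rw [zero_mul]
          exact mul_nonneg (tw_nonneg π h0 κ) (Real.rpow_pos_of_pos hb _).le
    _ = (∑ k, π k * (1 + s) ^ (y k)) ^ d := hmgf
    _ ≤ (Real.exp (s * μ)) ^ d := by
        refine pow_le_pow_left₀ hnn ?_ d
        calc ∑ k, π k * (1 + s) ^ (y k) ≤ 1 + s * μ := hstep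
          _ = s * μ + 1 := by ring
          _ ≤ Real.exp (s * μ) := Real.add_one_le_exp _
    _ = Real.exp (s * μ * d) := by
        rw [← Real.exp_nat_mul]
        ring_nf

/-- `x log x > x - 1` for positive `x ≠ 1`. -/
lemma mul_log_gt {x : ℝ} (hx : 0 < x) (hx1 : x ≠ 1) : x - 1 < x * Real.log x := by
  have hinv : 0 < x⁻¹ := inv_pos.mpr hx
  have hne : x⁻¹ ≠ 1 := by
    intro h
    exact hx1 (inv_eq_one.mp h)
  have h := Real.log_lt_sub_one_of_pos hinv hne
  rw [Real.log_inv] at h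
  have h2 : x * (1 - x⁻¹) < x * Real.log x := mul_lt_mul_of_pos_left (by linarith) hx
  have h3 : x * (1 - x⁻¹) = x - 1 := by
    field_simp
  linarith

/-- upper Chernoff exponent -/
noncomputable def cp (ε : ℝ) : ℝ := (1 + ε) * Real.log (1 + ε) - ε

/-- lower Chernoff exponent -/
noncomputable def cm (ε : ℝ) : ℝ := ε + (1 - ε) * Real.log (1 - ε)

lemma cp_pos {ε : ℝ} (h0 : 0 < ε) : 0 < cp ε := by
  have := mul_log_gt (x := 1 + ε) (by linarith) (by linarith)
  unfold cp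
  linarith

lemma cm_pos {ε : ℝ} (h0 : 0 < ε) (h1 : ε < 1) : 0 < cm ε := by
  have := mul_log_gt (x := 1 - ε) (by linarith) (by linarith)
  unfold cm
  linarith

/-- two sided tail bound -/
lemma two_sided [DecidableEq K] (π : K → ℝ) (h0 : ∀ k, 0 ≤ π k) (h1 : ∑ k, π k = 1)
    (y : K → ℝ) (hy0 : ∀ k, 0 ≤ y k) (hy1 : ∀ k, y k ≤ 1) (μ : ℝ)
    (hμ : ∑ k, π k * y k = μ) (ε : ℝ) (hε0 : 0 < ε) (hε1 : ε < 1) (d : ℕ) :
    (∑ κ : Fin d → K,
      if ((1 + ε) * (μ * d) ≤ ∑ t, y (κ t) ∨ ∑ t, y (κ t) ≤ (1 - ε) * (μ * d))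
        then tw π κ else 0)
      ≤ Real.exp (-(cp ε * (μ * d))) + Real.exp (-(cm ε * (μ * d))) := by
  have hup := tail_bound π h0 h1 y hy0 hy1 μ hμ ε (by linarith) d ((1 + ε) * (μ * d))
  have hlo := tail_bound π h0 h1 y hy0 hy1 μ hμ (-ε) (by linarith) d ((1 - ε) * (μ * d))
  have e1 : Real.exp (ε * μ * d) / (1 + ε) ^ ((1 + ε) * (μ * d))
      = Real.exp (-(cp ε * (μ * d))) := by
    rw [Real.rpow_def_of_pos (by linarith), ← Real.exp_sub]
    congr 1
    unfold cp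
    ring
  have e2 : Real.exp (-ε * μ * d) / (1 + -ε) ^ ((1 - ε) * (μ * d))
      = Real.exp (-(cm ε * (μ * d))) := by
    rw [Real.rpow_def_of_pos (by linarith), ← Real.exp_sub]
    congr 1
    unfold cm
    rw [← sub_eq_add_neg]
    ring
  rw [e1] at hup
  rw [e2] at hlo
  refine le_trans ?_ (add_le_add hup hlo)
  rw [← Finset.sum_add_distrib]
  refine Finset.sum_le_sum (fun κ _ => ?_)
  have htw := tw_nonneg π h0 κ
  split_ifs with hc ha hb hb ha hb hb
  · linarith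
  · linarith
  · linarith
  · exfalso
    rcases hc with hc | hc
    · exact ha (Real.rpow_le_rpow_of_exponent_le (by linarith) hc)
    · exact hb (Real.rpow_le_rpow_of_exponent_ge (by linarith) (by linarith) hc)
  · linarith
  · linarith
  · linarith
  · linarith

/-- union bound -/
lemma exists_good [DecidableEq K] (π : K → ℝ) (h0 : ∀ k, 0 ≤ π k) (h1 : ∑ k, π k = 1) (d : ℕ)
    {E : Type*} (F : Finset E) (bad : E → (Fin d → K) → Prop) [∀ e κ, Decidable (bad e κ)]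
    (β : ℝ) (hb : ∀ e ∈ F, (∑ κ : Fin d → K, if bad e κ then tw π κ else 0) ≤ β)
    (hlt : F.card * β < 1) : ∃ κ : Fin d → K, ∀ e ∈ F, ¬ bad e κ := by
  by_contra hcon
  push Not at hcon
  have : (1 : ℝ) ≤ F.card * β := by
    calc (1 : ℝ) = ∑ κ : Fin d → K, tw π κ := (sum_tw π h1 d).symm
      _ ≤ ∑ κ : Fin d → K, ∑ e ∈ F, (if bad e κ then tw π κ else 0) := by
          refine Finset.sum_le_sum (fun κ _ => ?_)
          obtain ⟨e, he, hbad⟩ := hcon κ
          calc tw π κ = if bad e κ then tw π κ else 0 := by rw [if_pos hbad]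
            _ ≤ ∑ e ∈ F, (if bad e κ then tw π κ else 0) := by
                refine Finset.single_le_sum (f := fun e => if bad e κ then tw π κ else 0)
                  (fun e _ => ?_) he
                split_ifs
                · exact tw_nonneg π h0 κ
                · exact le_refl _
      _ = ∑ e ∈ F, ∑ κ : Fin d → K, (if bad e κ then tw π κ else 0) := Finset.sum_comm
      _ ≤ ∑ _e ∈ F, β := Finset.sum_le_sum hb
      _ = F.card * β := by simp
  linarith

/-- **Importance sampling.**  If every weight function `w e` (`e ∈ F`) is a probability vector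
dominated by `σ`, then `d` suitably chosen coordinates reproduce all masses up to `1 ± ε`. -/
lemma exists_sample [DecidableEq K] (σ : K → ℝ) (hσ : ∀ k, 0 < σ k) (S : ℝ) (hS : ∑ k, σ k = S)
    (hS0 : 0 < S) {E : Type*} (F : Finset E) (w : E → K → ℝ)
    (hw0 : ∀ e ∈ F, ∀ k, 0 ≤ w e k) (hwσ : ∀ e ∈ F, ∀ k, w e k ≤ σ k)
    (hw1 : ∀ e ∈ F, ∑ k, w e k = 1) (ε : ℝ) (hε0 : 0 < ε) (hε1 : ε < 1) (d : ℕ)
    (hd : F.card * (Real.exp (-(cp ε * (1 / S * d))) + Real.exp (-(cm ε * (1 / S * d)))) < 1) :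
    ∃ κ : Fin d → K, ∀ e ∈ F,
      (1 - ε) * (1 / S * d) < ∑ t, w e (κ t) / σ (κ t) ∧
        ∑ t, w e (κ t) / σ (κ t) < (1 + ε) * (1 / S * d) := by
  have hπ0 : ∀ k, 0 ≤ σ k / S := fun k => div_nonneg (hσ k).le hS0.le
  have hπ1 : ∑ k, σ k / S = 1 := by
    rw [← Finset.sum_div, hS, div_self hS0.ne']
  obtain ⟨κ, hκ⟩ := exists_good (fun k => σ k / S) hπ0 hπ1 d F
    (fun e κ => (1 + ε) * (1 / S * d) ≤ ∑ t, w e (κ t) / σ (κ t) ∨
      ∑ t, w e (κ t) / σ (κ t) ≤ (1 - ε) * (1 / S * d))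
    (Real.exp (-(cp ε * (1 / S * d))) + Real.exp (-(cm ε * (1 / S * d))))
    (by
      intro e he
      refine two_sided (fun k => σ k / S) hπ0 hπ1 (fun k => w e k / σ k)
        (fun k => div_nonneg (hw0 e he k) (hσ k).le)
        (fun k => (div_le_one (hσ k)).mpr (hwσ e he k)) (1 / S) ?_ ε hε0 hε1 d
      calc ∑ k, σ k / S * (w e k / σ k) = ∑ k, w e k / S := by
            refine Finset.sum_congr rfl (fun k _ => ?_)
            have := (hσ k).ne'
            field_simp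
        _ = 1 / S := by rw [← Finset.sum_div, hw1 e he]) hd
  refine ⟨κ, fun e he => ?_⟩
  have := hκ e he
  push Not at this
  exact ⟨this.2, this.1⟩

end Vale.Agent.Lib.P249
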