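import Mathlib
import Vale.Agent.Lib.P249.Sampling

/-!
# Empirical method with additive error (Hoeffding type bound, finite and elementary)
-/

namespace Vale.Agent.Lib.P249

open Finset

variable {K : Type*} [Fintype K]

lemma exp_le_cosh_add (l z : ℝ) (h1 : -1 ≤ z) (h2 : z ≤ 1) :
    Real.exp (l * z) ≤ Real.cosh l + z * Real.sinh l := by
  have hconv := convexOn_exp.2 (Set.mem_univ l) (Set.mem_univ (-l))
    (show (0 : ℝ) ≤ (1 + z) / 2 by linarith) (show (0 : ℝ) ≤ (1 - z) / 2 by linarith) (by ring)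
  simp only [smul_eq_mul] at hconv
  have e1 : (1 + z) / 2 * l + (1 - z) / 2 * -l = l * z := by ring
  rw [e1] at hconv
  rw [Real.cosh_eq, Real.sinh_eq]
  linarith

/-- Hoeffding type bound for the moment generating function -/
lemma mgf_bound (π : K → ℝ) (h0 : ∀ k, 0 ≤ π k) (h1 : ∑ k, π k = 1)
    (y : K → ℝ) (hy0 : ∀ k, 0 ≤ y k) (hy1 : ∀ k, y k ≤ 1) (μ : ℝ)
    (hμ : ∑ k, π k * y k = μ) (l : ℝ) :
    ∑ k, π k * Real.exp (l * (y k - μ)) ≤ Real.exp (l ^ 2 / 2) := by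
  have hμ0 : 0 ≤ μ := by
    rw [← hμ]
    exact Finset.sum_nonneg (fun k _ => mul_nonneg (h0 k) (hy0 k))
  have hμ1 : μ ≤ 1 := by
    rw [← hμ, ← h1]
    refine Finset.sum_le_sum (fun k _ => ?_)
    calc π k * y k ≤ π k * 1 := mul_le_mul_of_nonneg_left (hy1 k) (h0 k)
      _ = π k := mul_one _
  calc ∑ k, π k * Real.exp (l * (y k - μ))
      ≤ ∑ k, π k * (Real.cosh l + (y k - μ) * Real.sinh l) := by
        refine Finset.sum_le_sum (fun k _ => mul_le_mul_of_nonneg_left ?_ (h0 k))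
        refine exp_le_cosh_add l _ ?_ ?_
        · have := hy0 k
          linarith
        · have := hy1 k
          linarith
    _ = (∑ k, π k) * Real.cosh l + (∑ k, π k * y k - μ * ∑ k, π k) * Real.sinh l := by
        rw [Finset.sum_mul, Finset.mul_sum, ← Finset.sum_sub_distrib, Finset.sum_mul,
          ← Finset.sum_add_distrib]
        refine Finset.sum_congr rfl (fun k _ => ?_)
        ring
    _ = Real.cosh l := by rw [h1, hμ]; ring
    _ ≤ Real.exp (l ^ 2 / 2) := Real.cosh_le_exp_half_sq l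

/-- one sided additive tail bound; `l` may be negative -/
lemma add_tail [DecidableEq K] (π : K → ℝ) (h0 : ∀ k, 0 ≤ π k) (h1 : ∑ k, π k = 1)
    (y : K → ℝ) (hy0 : ∀ k, 0 ≤ y k) (hy1 : ∀ k, y k ≤ 1) (μ : ℝ)
    (hμ : ∑ k, π k * y k = μ) (l : ℝ) (d : ℕ) :
    (∑ κ : Fin d → K, if (d : ℝ) * l ^ 2 ≤ l * ∑ t, (y (κ t) - μ) then tw π κ else 0)
      ≤ Real.exp (-((d : ℝ) * l ^ 2 / 2)) := by
  have hpos : 0 < Real.exp ((d : ℝ) * l ^ 2) := Real.exp_pos _
  have hmgf : ∑ κ : Fin d → K, tw π κ * Real.exp (l * ∑ t, (y (κ t) - μ))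
      = (∑ k, π k * Real.exp (l * (y k - μ))) ^ d := by
    rw [← sum_tw_mul]
    refine Finset.sum_congr rfl (fun κ _ => ?_)
    rw [Finset.mul_sum, Real.exp_sum]
  have hnn : 0 ≤ ∑ k, π k * Real.exp (l * (y k - μ)) :=
    Finset.sum_nonneg (fun k _ => mul_nonneg (h0 k) (Real.exp_pos _).le)
  have key : (∑ κ : Fin d → K, if (d : ℝ) * l ^ 2 ≤ l * ∑ t, (y (κ t) - μ) then tw π κ else 0)
      * Real.exp ((d : ℝ) * l ^ 2) ≤ Real.exp ((d : ℝ) * l ^ 2 / 2) := by
    rw [Finset.sum_mul]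
    calc ∑ κ : Fin d → K, (if (d : ℝ) * l ^ 2 ≤ l * ∑ t, (y (κ t) - μ) then tw π κ else 0)
          * Real.exp ((d : ℝ) * l ^ 2)
        ≤ ∑ κ : Fin d → K, tw π κ * Real.exp (l * ∑ t, (y (κ t) - μ)) := by
          refine Finset.sum_le_sum (fun κ _ => ?_)
          split_ifs with h
          · exact mul_le_mul_of_nonneg_left (Real.exp_le_exp.mpr h) (tw_nonneg π h0 κ)
          · rw [zero_mul]
            exact mul_nonneg (tw_nonneg π h0 κ) (Real.exp_pos _).le
      _ = (∑ k, π k * Real.exp (l * (y k - μ))) ^ d := hmgf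
      _ ≤ (Real.exp (l ^ 2 / 2)) ^ d :=
          pow_le_pow_left₀ hnn (mgf_bound π h0 h1 y hy0 hy1 μ hμ l) d
      _ = Real.exp ((d : ℝ) * l ^ 2 / 2) := by
          rw [← Real.exp_nat_mul]
          ring_nf
  have e : Real.exp (-((d : ℝ) * l ^ 2 / 2))
      = Real.exp ((d : ℝ) * l ^ 2 / 2) / Real.exp ((d : ℝ) * l ^ 2) := by
    rw [← Real.exp_sub]
    ring_nf
  rw [e, le_div_iff₀ hpos]
  exact key

/-- two sided additive tail bound -/
lemma add_two_sided [DecidableEq K] (π : K → ℝ) (h0 : ∀ k, 0 ≤ π k) (h1 : ∑ k, π k = 1)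
    (y : K → ℝ) (hy0 : ∀ k, 0 ≤ y k) (hy1 : ∀ k, y k ≤ 1) (μ : ℝ)
    (hμ : ∑ k, π k * y k = μ) (τ : ℝ) (hτ : 0 < τ) (d : ℕ) :
    (∑ κ : Fin d → K, if (d : ℝ) * τ ≤ |∑ t, y (κ t) - d * μ| then tw π κ else 0)
      ≤ 2 * Real.exp (-((d : ℝ) * τ ^ 2 / 2)) := by
  have hup := add_tail π h0 h1 y hy0 hy1 μ hμ τ d
  have hlo := add_tail π h0 h1 y hy0 hy1 μ hμ (-τ) d
  rw [neg_sq] at hlo
  have hsum : ∀ κ : Fin d → K, ∑ t, (y (κ t) - μ) = ∑ t, y (κ t) - d * μ := by
    intro κ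
    rw [Finset.sum_sub_distrib, Finset.sum_const, Finset.card_univ, Fintype.card_fin,
      nsmul_eq_mul]
  have : 2 * Real.exp (-((d : ℝ) * τ ^ 2 / 2))
      = Real.exp (-((d : ℝ) * τ ^ 2 / 2)) + Real.exp (-((d : ℝ) * τ ^ 2 / 2)) := by ring
  rw [this]
  refine le_trans ?_ (add_le_add hup hlo)
  rw [← Finset.sum_add_distrib]
  refine Finset.sum_le_sum (fun κ _ => ?_)
  have htw := tw_nonneg π h0 κ
  rw [hsum κ]
  split_ifs with hc ha hb hb ha hb hb
  · linarith
  · linarith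
  · linarith
  · exfalso
    rcases le_abs.mp hc with hc | hc
    · apply ha
      nlinarith
    · apply hb
      nlinarith
  · linarith
  · linarith
  · linarith
  · linarith

/-- **Empirical method.** -/
lemma exists_sample_add [DecidableEq K] (π : K → ℝ) (h0 : ∀ k, 0 ≤ π k) (h1 : ∑ k, π k = 1)
    {E : Type*} (F : Finset E) (y : E → K → ℝ) (hy0 : ∀ e ∈ F, ∀ k, 0 ≤ y e k)
    (hy1 : ∀ e ∈ F, ∀ k, y e k ≤ 1) (τ : ℝ) (hτ : 0 < τ) (d : ℕ)
    (hd : F.card * (2 * Real.exp (-((d : ℝ) * τ ^ 2 / 2))) < 1) :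
    ∃ κ : Fin d → K, ∀ e ∈ F, |∑ t, y e (κ t) - d * ∑ k, π k * y e k| < d * τ := by
  obtain ⟨κ, hκ⟩ := exists_good π h0 h1 d F
    (fun e κ => (d : ℝ) * τ ≤ |∑ t, y e (κ t) - d * ∑ k, π k * y e k|)
    (2 * Real.exp (-((d : ℝ) * τ ^ 2 / 2)))
    (fun e he => add_two_sided π h0 h1 (y e) (hy0 e he) (hy1 e he) _ rfl τ hτ d) hd
  exact ⟨κ, fun e he => not_le.mp (hκ e he)⟩

/-- **Additive dimension reduction for dominated families in a finite `ℓ_p`.** -/
theorem core_add [DecidableEq K] (p : ℝ) (hp : 1 ≤ p) (n : ℕ) (a : Fin n → K → ℝ) (W : K → ℝ)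
    (hW0 : ∀ k, 0 ≤ W k) (hW : ∀ i k, |a i k| ^ p ≤ W k) (S : ℝ) (hS : ∑ k, W k = S)
    (τ : ℝ) (hτ : 0 < τ) (d : ℕ)
    (hd : (n : ℝ) ^ 2 * (2 * Real.exp (-((d : ℝ) * τ ^ 2 / 2))) < 1) :
    ∃ f : Fin n → Fin d → ℝ, ∀ i j,
      |∑ t, |f i t - f j t| ^ p - ∑ k, |a i k - a j k| ^ p| ≤ 2 ^ p * S * τ := by
  have hp0 : 0 < p := by linarith
  have hS0 : 0 ≤ S := by
    rw [← hS]
    exact Finset.sum_nonneg (fun k _ => hW0 k)
  have h2p : (0 : ℝ) < 2 ^ p := by positivity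
  -- the basic pointwise domination
  have hg : ∀ i j k, |a i k - a j k| ^ p ≤ 2 ^ p * W k := by
    intro i j k
    have hroot : ∀ i, |a i k| ≤ (W k) ^ (1 / p) := by
      intro i
      have h := Real.rpow_le_rpow (Real.rpow_nonneg (abs_nonneg _) p) (hW i k)
        (show 0 ≤ 1 / p by positivity)
      rwa [← Real.rpow_mul (abs_nonneg _), mul_one_div_cancel hp0.ne', Real.rpow_one] at h
    have h1 : |a i k - a j k| ≤ 2 * (W k) ^ (1 / p) := by
      have := abs_sub (a i k) (a j k)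
      have := hroot i
      have := hroot j
      linarith
    calc |a i k - a j k| ^ p ≤ (2 * (W k) ^ (1 / p)) ^ p :=
          Real.rpow_le_rpow (abs_nonneg _) h1 hp0.le
      _ = 2 ^ p * W k := by
          rw [Real.mul_rpow (by norm_num) (Real.rpow_nonneg (hW0 k) _), ← Real.rpow_mul (hW0 k),
            one_div_mul_cancel hp0.ne', Real.rpow_one]
  have hg0 : ∀ i j k, 0 ≤ |a i k - a j k| ^ p := fun i j k => Real.rpow_nonneg (abs_nonneg _) p
  rcases hS0.eq_or_lt with hSz | hSpos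
  · -- everything vanishes
    have hWz : ∀ k, W k = 0 := by
      intro k
      have h := hS
      rw [← hSz] at h
      exact (Finset.sum_eq_zero_iff_of_nonneg (fun k _ => hW0 k)).mp h k (Finset.mem_univ k)
    refine ⟨fun _ _ => 0, fun i j => ?_⟩
    have hz : ∀ k, |a i k - a j k| ^ p = 0 := by
      intro k
      have h1 := hg i j k
      rw [hWz k, mul_zero] at h1
      exact le_antisymm h1 (hg0 i j k)
    simp [hz, Real.zero_rpow hp0.ne', ← hSz]
  · have hπ0 : ∀ k, 0 ≤ W k / S := fun k => div_nonneg (hW0 k) hSpos.le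
    have hπ1 : ∑ k, W k / S = 1 := by
      rw [← Finset.sum_div, hS, div_self hSpos.ne']
    set y : Fin n × Fin n → K → ℝ := fun e k => |a e.1 k - a e.2 k| ^ p / (2 ^ p * W k) with hy
    have hy0 : ∀ e ∈ (Finset.univ : Finset (Fin n × Fin n)), ∀ k, 0 ≤ y e k := fun e _ k =>
      div_nonneg (hg0 _ _ _) (mul_nonneg h2p.le (hW0 k))
    have hy1 : ∀ e ∈ (Finset.univ : Finset (Fin n × Fin n)), ∀ k, y e k ≤ 1 := fun e _ k =>
      div_le_one_of_le₀ (hg _ _ _) (mul_nonneg h2p.le (hW0 k))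
    have hcard : ((Finset.univ : Finset (Fin n × Fin n)).card : ℝ) = (n : ℝ) ^ 2 := by
      rw [Finset.card_univ, Fintype.card_prod, Fintype.card_fin]
      push_cast
      ring
    obtain ⟨κ, hκ⟩ := exists_sample_add (fun k => W k / S) hπ0 hπ1 Finset.univ y hy0 hy1 τ hτ d
      (by rw [hcard]; exact hd)
    refine ⟨fun i t => a i (κ t) * (S / (d * W (κ t))) ^ (1 / p), fun i j => ?_⟩
    -- `d` is positive as soon as there is an index
    have hdpos : (0 : ℝ) < (d : ℝ) := by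
      rcases Nat.eq_zero_or_pos d with h0 | h0
      · exfalso
        rw [h0] at hd
        have hn : (1 : ℝ) ≤ (n : ℝ) := by
          have : 0 < n := Fin.pos i
          exact_mod_cast this
        simp only [Nat.cast_zero, zero_mul, zero_div, neg_zero, Real.exp_zero, mul_one] at hd
        nlinarith
      · exact_mod_cast h0
    have hterm : ∀ t, |a i (κ t) * (S / (d * W (κ t))) ^ (1 / p)
        - a j (κ t) * (S / (d * W (κ t))) ^ (1 / p)| ^ p = 2 ^ p * S / d * y (i, j) (κ t) := by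
      intro t
      have hpos : 0 ≤ S / (d * W (κ t)) := div_nonneg hSpos.le (mul_nonneg hdpos.le (hW0 _))
      rw [← sub_mul, abs_mul, Real.mul_rpow (abs_nonneg _) (abs_nonneg _),
        abs_of_nonneg (Real.rpow_nonneg hpos _), ← Real.rpow_mul hpos,
        one_div_mul_cancel hp0.ne', Real.rpow_one, hy]
      simp only
      rcases (hW0 (κ t)).eq_or_lt with hz | hz
      · rw [← hz]
        simp
      · field_simp
    have hmean : ∑ k, W k / S * y (i, j) k = (∑ k, |a i k - a j k| ^ p) / (2 ^ p * S) := by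
      rw [Finset.sum_div]
      refine Finset.sum_congr rfl (fun k _ => ?_)
      rw [hy]
      simp only
      rcases (hW0 k).eq_or_lt with hz | hz
      · have h1 := hg i j k
        rw [← hz, mul_zero] at h1
        have h2 : |a i k - a j k| ^ p = 0 := le_antisymm h1 (hg0 i j k)
        rw [h2, ← hz]
        simp
      · field_simp
    have hk := hκ (i, j) (Finset.mem_univ _)
    rw [hmean] at hk
    simp only [hterm]
    rw [← Finset.mul_sum]
    have e : 2 ^ p * S / d * ∑ t, y (i, j) (κ t) - ∑ k, |a i k - a j k| ^ p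
        = 2 ^ p * S / d * (∑ t, y (i, j) (κ t)
          - d * ((∑ k, |a i k - a j k| ^ p) / (2 ^ p * S))) := by
      field_simp
    rw [e, abs_mul, abs_of_nonneg (by positivity : 0 ≤ 2 ^ p * S / (d : ℝ))]
    calc 2 ^ p * S / d * |∑ t, y (i, j) (κ t) - d * ((∑ k, |a i k - a j k| ^ p) / (2 ^ p * S))|
        ≤ 2 ^ p * S / d * (d * τ) := mul_le_mul_of_nonneg_left hk.le (by positivity)
      _ = 2 ^ p * S * τ := by field_simp

end Vale.Agent.Lib.P249
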