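import Mathlib

/-!
# A finite Vitali type selection lemma
-/

namespace Vale.Agent.Lib.P249

open Finset

/-- Greedy selection by increasing radius. -/
lemma vitali {ι : Type*} [DecidableEq ι] (r : ι → ℝ) (B : ι → Finset ι) (X : Finset ι)
    (hB : ∀ u ∈ X, (B u).Nonempty) :
    ∃ A : Finset ι, A ⊆ X ∧ (∀ a ∈ A, ∀ b ∈ A, a ≠ b → Disjoint (B a) (B b)) ∧
      ∀ u ∈ X, ∃ c ∈ A, r c ≤ r u ∧ ¬ Disjoint (B u) (B c) := by
  induction X using Finset.induction_on_max_value r with
  | empty => exact ⟨∅, by simp, by simp, by simp⟩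
  | insert a s ha hmax ih =>
    obtain ⟨A, hAs, hdis, hcov⟩ := ih (fun u hu => hB u (Finset.mem_insert_of_mem hu))
    by_cases hex : ∃ c ∈ A, ¬ Disjoint (B a) (B c)
    · obtain ⟨c, hcA, hc⟩ := hex
      refine ⟨A, hAs.trans (Finset.subset_insert a s), hdis, ?_⟩
      intro u hu
      rcases Finset.mem_insert.mp hu with rfl | hus
      · exact ⟨c, hcA, hmax c (hAs hcA), hc⟩
      · exact hcov u hus
    · push Not at hex
      refine ⟨insert a A, Finset.insert_subset_insert a hAs, ?_, ?_⟩
      · intro x hx y hy hxy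
        rcases Finset.mem_insert.mp hx with rfl | hxA
        · rcases Finset.mem_insert.mp hy with rfl | hyA
          · exact absurd rfl hxy
          · exact hex y hyA
        · rcases Finset.mem_insert.mp hy with rfl | hyA
          · exact (hex x hxA).symm
          · exact hdis x hxA y hyA hxy
      · intro u hu
        rcases Finset.mem_insert.mp hu with rfl | hus
        · refine ⟨u, Finset.mem_insert_self u A, le_refl _, ?_⟩
          rw [disjoint_self]
          exact (hB u (Finset.mem_insert_self u s)).ne_empty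
        · obtain ⟨c, hcA, h1, h2⟩ := hcov u hus
          exact ⟨c, Finset.mem_insert_of_mem hcA, h1, h2⟩

end Vale.Agent.Lib.P249
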