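import Mathlib
import Vale.Agent.Lib.P249.Vitali

/-!
# Linear total sensitivity of the family of differences of `n` points
-/

namespace Vale.Agent.Lib.P249

open Finset

section weights

variable {ι K : Type*} [Fintype K]

/-- normalised weights of a pair -/
noncomputable def nw (g : ι → ι → K → ℝ) (Λ : ι → ι → ℝ) (u v : ι) (k : K) : ℝ :=
  g u v k / Λ u v

variable (g : ι → ι → K → ℝ) (Λ : ι → ι → ℝ)
  (gnn : ∀ u v k, 0 ≤ g u v k) (gsum : ∀ u v, ∑ k, g u v k = Λ u v)

include gnn gsum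

lemma Lam_nonneg (u v : ι) : 0 ≤ Λ u v := by
  rw [← gsum u v]
  exact Finset.sum_nonneg (fun k _ => gnn u v k)

lemma nw_nonneg (u v : ι) (k : K) : 0 ≤ nw g Λ u v k :=
  div_nonneg (gnn u v k) (Lam_nonneg g Λ gnn gsum u v)

lemma nw_sum_le (u v : ι) : ∑ k, nw g Λ u v k ≤ 1 := by
  unfold nw
  rw [← Finset.sum_div, gsum u v]
  exact div_self_le_one _

lemma nw_mul (u v : ι) (k : K) : g u v k = nw g Λ u v k * Λ u v := by
  unfold nw
  by_cases h : Λ u v = 0
  · rw [h, mul_zero]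
    have h' := gsum u v
    rw [h] at h'
    exact (Finset.sum_eq_zero_iff_of_nonneg (fun k _ => gnn u v k)).mp h' k (Finset.mem_univ k)
  · rw [div_mul_cancel₀ _ h]

lemma nw_tot1 (s : Finset ι) (f : ι → ι) :
    ∑ k, ∑ u ∈ s, nw g Λ u (f u) k ≤ s.card := by
  rw [Finset.sum_comm]
  calc ∑ u ∈ s, ∑ k, nw g Λ u (f u) k ≤ ∑ u ∈ s, (1 : ℝ) :=
        Finset.sum_le_sum (fun u _ => nw_sum_le g Λ gnn gsum u (f u))
    _ = s.card := by simp

lemma nw_tot2 (s : Finset ι) (t : ι → Finset ι) (ρ : ℕ) (ht : ∀ u ∈ s, (t u).card ≤ ρ) :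
    ∑ k, ∑ u ∈ s, ∑ v ∈ t u, nw g Λ u v k ≤ ρ * s.card := by
  rw [Finset.sum_comm]
  calc ∑ u ∈ s, ∑ k, ∑ v ∈ t u, nw g Λ u v k ≤ ∑ u ∈ s, (ρ : ℝ) := by
        refine Finset.sum_le_sum (fun u hu => ?_)
        rw [Finset.sum_comm]
        calc ∑ v ∈ t u, ∑ k, nw g Λ u v k ≤ ∑ v ∈ t u, (1 : ℝ) :=
              Finset.sum_le_sum (fun v _ => nw_sum_le g Λ gnn gsum u v)
          _ = (t u).card := by simp
          _ ≤ ρ := by exact_mod_cast ht u hu
    _ = ρ * s.card := by simp [mul_comm]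

end weights

/-- **Linear total sensitivity.**  Abstract form. -/
theorem sensitivity {ι K : Type*} [DecidableEq ι] [Fintype K]
    (L Λ : ι → ι → ℝ) (g : ι → ι → K → ℝ)
    (c2 c3 c5 : ℝ) (hc2 : 0 ≤ c2) (hc3 : 0 ≤ c3) (hc5 : 0 ≤ c5)
    (Lsymm : ∀ u v, L u v = L v u) (Ltri : ∀ u v w, L u w ≤ L u v + L v w)
    (gnn : ∀ u v k, 0 ≤ g u v k) (gsymm : ∀ u v k, g u v k = g v u k)
    (gsum : ∀ u v, ∑ k, g u v k = Λ u v)
    (gtri : ∀ u a b v k, g u v k ≤ c3 * (g u a k + g a b k + g b v k))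
    (h2 : ∀ u v u' v', L u v ≤ 2 * L u' v' → Λ u v ≤ c2 * Λ u' v')
    (h5 : ∀ u v u' v', L u v ≤ 5 * L u' v' → Λ u v ≤ c5 * Λ u' v')
    (ρ : ℕ) (hρ : 2 * (c3 * c5) ≤ ρ) (hρ2 : 2 ≤ ρ) (X : Finset ι) :
    ∃ σ : K → ℝ, (∀ k, 0 ≤ σ k) ∧ (∀ u ∈ X, ∀ v ∈ X, ∀ k, g u v k ≤ σ k * Λ u v) ∧
      ∑ k, σ k ≤ 2 * (ρ + 2 * (c3 * c2)) * X.card := by
  induction' hN : X.card using Nat.strong_induction_on with N ih generalizing X
  have Λnn := Lam_nonneg g Λ gnn gsum
  have wnn := nw_nonneg g Λ gnn gsum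
  have wmul := nw_mul g Λ gnn gsum
  have Λsymm : ∀ u v, Λ u v = Λ v u := by
    intro u v
    rw [← gsum u v, ← gsum v u]
    exact Finset.sum_congr rfl (fun k _ => gsymm u v k)
  have hT : 0 ≤ c3 * c2 := mul_nonneg hc3 hc2
  have hQ : 0 ≤ c3 * c5 := mul_nonneg hc3 hc5
  have hκ : 0 ≤ 2 * ((ρ : ℝ) + 2 * (c3 * c2)) := by positivity
  by_cases hsmall : X.card ≤ ρ
  · -- base case
    refine ⟨fun k => ∑ u ∈ X, ∑ v ∈ X, nw g Λ u v k, ?_, ?_, ?_⟩
    · intro k
      exact Finset.sum_nonneg (fun u _ => Finset.sum_nonneg (fun v _ => wnn u v k))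
    · intro u hu v hv k
      rw [wmul u v k]
      refine mul_le_mul_of_nonneg_right ?_ (Λnn u v)
      calc nw g Λ u v k ≤ ∑ v' ∈ X, nw g Λ u v' k :=
            Finset.single_le_sum (f := fun v' => nw g Λ u v' k) (fun v' _ => wnn u v' k) hv
        _ ≤ ∑ u' ∈ X, ∑ v' ∈ X, nw g Λ u' v' k :=
            Finset.single_le_sum (f := fun u' => ∑ v' ∈ X, nw g Λ u' v' k)
              (fun u' _ => Finset.sum_nonneg (fun v' _ => wnn u' v' k)) hu
    · have h := nw_tot2 g Λ gnn gsum X (fun _ => X) ρ (fun _ _ => hsmall)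
      rw [hN] at h
      have hNn : (0 : ℝ) ≤ (N : ℝ) := Nat.cast_nonneg N
      have hρn : (0 : ℝ) ≤ (ρ : ℝ) := Nat.cast_nonneg ρ
      calc ∑ k, ∑ u ∈ X, ∑ v ∈ X, nw g Λ u v k ≤ ρ * N := h
        _ ≤ 2 * (ρ + 2 * (c3 * c2)) * N := by
            refine mul_le_mul_of_nonneg_right ?_ hNn
            linarith
  · -- inductive step
    push Not at hsmall
    set cnt : ι → ι → ℕ := fun u v => (X.filter (fun v' => L u v' ≤ L u v)).card with hcnt
    set near : ι → Finset ι := fun u => X.filter (fun v => cnt u v ≤ ρ) with hneardef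
    have hnear : ∀ u, (near u).card ≤ ρ := by
      intro u
      by_cases hne : (near u).Nonempty
      · obtain ⟨vs, hvs, hmax⟩ := Finset.exists_max_image (near u) (L u) hne
        have hsub : near u ⊆ X.filter (fun v' => L u v' ≤ L u vs) := by
          intro v hv
          rw [Finset.mem_filter]
          exact ⟨(Finset.mem_filter.mp hv).1, hmax v hv⟩
        exact (Finset.card_le_card hsub).trans (Finset.mem_filter.mp hvs).2
      · rw [Finset.not_nonempty_iff_eq_empty] at hne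
        rw [hne]
        simp
    have hfar : ∀ u, ∃ v₀ ∈ X, ρ < cnt u v₀ ∧ ∀ v ∈ X, ρ < cnt u v → L u v₀ ≤ L u v := by
      intro u
      have hne : (X.filter (fun v => ρ < cnt u v)).Nonempty := by
        by_contra hcon
        rw [Finset.not_nonempty_iff_eq_empty, Finset.filter_eq_empty_iff] at hcon
        have hsub : X ⊆ near u := by
          intro v hv
          rw [Finset.mem_filter]
          exact ⟨hv, not_lt.mp (hcon hv)⟩
        have := (Finset.card_le_card hsub).trans (hnear u)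
        omega
      obtain ⟨v₀, hv₀, hmin⟩ := Finset.exists_min_image _ (L u) hne
      refine ⟨v₀, (Finset.mem_filter.mp hv₀).1, (Finset.mem_filter.mp hv₀).2, ?_⟩
      intro v hv hcv
      exact hmin v (Finset.mem_filter.mpr ⟨hv, hcv⟩)
    choose v₀ hv₀X hv₀cnt hv₀min using hfar
    set r : ι → ℝ := fun u => L u (v₀ u) with hr
    set B : ι → Finset ι := fun u => X.filter (fun v' => L u v' ≤ r u) with hB
    have hBcard : ∀ u, ρ < (B u).card := fun u => hv₀cnt u
    have hBne : ∀ u, (B u).Nonempty := fun u =>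
      Finset.card_pos.mp (lt_of_le_of_lt (Nat.zero_le _) (hBcard u))
    obtain ⟨A, hAX, hdis, hcov⟩ := vitali r B X (fun u _ => hBne u)
    have hAcard : A.card * ρ ≤ X.card := by
      calc A.card * ρ = ∑ _c ∈ A, ρ := by simp
        _ ≤ ∑ c ∈ A, (B c).card := Finset.sum_le_sum (fun c _ => (hBcard c).le)
        _ = (A.biUnion B).card := (Finset.card_biUnion hdis).symm
        _ ≤ X.card := by
            refine Finset.card_le_card ?_
            intro z hz
            obtain ⟨c, _, hzc⟩ := Finset.mem_biUnion.mp hz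
            exact (Finset.mem_filter.mp hzc).1
    have hAlt : A.card < N := by
      have h1 : A.card * 2 ≤ A.card * ρ := Nat.mul_le_mul_left _ hρ2
      omega
    obtain ⟨σA, hσA0, hσAb, hσAt⟩ := ih A.card hAlt A rfl
    have hc : ∀ u, ∃ c, u ∈ X → (c ∈ A ∧ r c ≤ r u ∧ ¬ Disjoint (B u) (B c)) := by
      intro u
      by_cases hu : u ∈ X
      · obtain ⟨c, h1, h2, h3⟩ := hcov u hu
        exact ⟨c, fun _ => ⟨h1, h2, h3⟩⟩
      · exact ⟨u, fun h => absurd h hu⟩
    choose c hc using hc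
    have hLc : ∀ u ∈ X, L u (c u) ≤ 2 * r u := by
      intro u hu
      obtain ⟨_, hrc, hnd⟩ := hc u hu
      rw [Finset.not_disjoint_iff] at hnd
      obtain ⟨z, hzu, hzc⟩ := hnd
      have h1 : L u z ≤ r u := (Finset.mem_filter.mp hzu).2
      have h2 : L (c u) z ≤ r (c u) := (Finset.mem_filter.mp hzc).2
      have h3 := Ltri u z (c u)
      rw [Lsymm z (c u)] at h3
      linarith
    have hrfar : ∀ u, ∀ v ∈ X, v ∉ near u → r u ≤ L u v := by
      intro u v hv hvn
      refine hv₀min u v hv ?_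
      by_contra hcon
      exact hvn (Finset.mem_filter.mpr ⟨hv, not_lt.mp hcon⟩)
    set S1 : K → ℝ := fun k => ∑ u ∈ X, ∑ v ∈ near u, nw g Λ u v k with hS1
    set S2 : K → ℝ := fun k => ∑ u ∈ X, nw g Λ u (c u) k with hS2
    have hS1nn : ∀ k, 0 ≤ S1 k := fun k =>
      Finset.sum_nonneg (fun u _ => Finset.sum_nonneg (fun v _ => wnn u v k))
    have hS2nn : ∀ k, 0 ≤ S2 k := fun k => Finset.sum_nonneg (fun u _ => wnn u (c u) k)
    have hS1le : ∀ u ∈ X, ∀ v ∈ near u, ∀ k, nw g Λ u v k ≤ S1 k := by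
      intro u hu v hv k
      calc nw g Λ u v k ≤ ∑ v' ∈ near u, nw g Λ u v' k :=
            Finset.single_le_sum (f := fun v' => nw g Λ u v' k) (fun v' _ => wnn u v' k) hv
        _ ≤ ∑ u' ∈ X, ∑ v' ∈ near u', nw g Λ u' v' k :=
            Finset.single_le_sum (f := fun u' => ∑ v' ∈ near u', nw g Λ u' v' k)
              (fun u' _ => Finset.sum_nonneg (fun v' _ => wnn u' v' k)) hu
    have hS2le : ∀ u ∈ X, ∀ k, nw g Λ u (c u) k ≤ S2 k := by
      intro u hu k
      exact Finset.single_le_sum (f := fun u' => nw g Λ u' (c u') k)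
        (fun u' _ => wnn u' (c u') k) hu
    refine ⟨fun k => S1 k + 2 * (c3 * c2) * S2 k + (c3 * c5) * σA k, ?_, ?_, ?_⟩
    · intro k
      have := hS1nn k
      have := mul_nonneg (mul_nonneg (by norm_num : (0 : ℝ) ≤ 2) hT) (hS2nn k)
      have := mul_nonneg hQ (hσA0 k)
      linarith
    · intro u hu v hv k
      have hrest : 0 ≤ 2 * (c3 * c2) * S2 k + (c3 * c5) * σA k := by
        have := mul_nonneg (mul_nonneg (by norm_num : (0 : ℝ) ≤ 2) hT) (hS2nn k)
        have := mul_nonneg hQ (hσA0 k)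
        linarith
      by_cases h1 : v ∈ near u
      · rw [wmul u v k]
        refine mul_le_mul_of_nonneg_right ?_ (Λnn u v)
        have := hS1le u hu v h1 k
        linarith
      by_cases h1' : u ∈ near v
      · rw [gsymm u v k, wmul v u k, Λsymm u v]
        refine mul_le_mul_of_nonneg_right ?_ (Λnn v u)
        have := hS1le v hv u h1' k
        linarith
      have hru : r u ≤ L u v := hrfar u v hv h1
      have hrv : r v ≤ L u v := by
        rw [Lsymm u v]
        exact hrfar v u hu h1'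
      have hLu := hLc u hu
      have hLv := hLc v hv
      have e1 : g u (c u) k ≤ nw g Λ u (c u) k * (c2 * Λ u v) := by
        rw [wmul u (c u) k]
        exact mul_le_mul_of_nonneg_left (h2 _ _ _ _ (by linarith)) (wnn _ _ _)
      have e3 : g (c v) v k ≤ nw g Λ v (c v) k * (c2 * Λ u v) := by
        rw [gsymm (c v) v k, wmul v (c v) k]
        exact mul_le_mul_of_nonneg_left (h2 _ _ _ _ (by linarith)) (wnn _ _ _)
      have e2 : g (c u) (c v) k ≤ σA k * (c5 * Λ u v) := by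
        refine (hσAb (c u) (hc u hu).1 (c v) (hc v hv).1 k).trans ?_
        refine mul_le_mul_of_nonneg_left (h5 _ _ _ _ ?_) (hσA0 k)
        have t1 := Ltri (c u) u (c v)
        have t2 := Ltri u v (c v)
        rw [Lsymm (c u) u] at t1
        linarith
      have s1 := hS2le u hu k
      have s2 := hS2le v hv k
      calc g u v k ≤ c3 * (g u (c u) k + g (c u) (c v) k + g (c v) v k) := gtri u (c u) (c v) v k
        _ ≤ c3 * (nw g Λ u (c u) k * (c2 * Λ u v) + σA k * (c5 * Λ u v)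
              + nw g Λ v (c v) k * (c2 * Λ u v)) := by
            refine mul_le_mul_of_nonneg_left ?_ hc3
            linarith
        _ = ((c3 * c2) * (nw g Λ u (c u) k + nw g Λ v (c v) k) + (c3 * c5) * σA k) * Λ u v := by
            ring
        _ ≤ (S1 k + 2 * (c3 * c2) * S2 k + (c3 * c5) * σA k) * Λ u v := by
            refine mul_le_mul_of_nonneg_right ?_ (Λnn u v)
            have h3 : (c3 * c2) * (nw g Λ u (c u) k + nw g Λ v (c v) k)
                ≤ (c3 * c2) * (2 * S2 k) :=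
              mul_le_mul_of_nonneg_left (by linarith) hT
            have := hS1nn k
            linarith
    · have t1 : ∑ k, S1 k ≤ ρ * X.card :=
        nw_tot2 g Λ gnn gsum X near ρ (fun u _ => hnear u)
      have t2 : ∑ k, S2 k ≤ X.card := nw_tot1 g Λ gnn gsum X c
      rw [hN] at t1 t2
      have hAc : (A.card : ℝ) * ρ ≤ N := by
        rw [← hN]
        exact_mod_cast hAcard
      have hAnn : (0 : ℝ) ≤ (A.card : ℝ) := Nat.cast_nonneg _
      have hQA : (c3 * c5) * A.card ≤ N / 2 := by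
        have : 2 * (c3 * c5) * A.card ≤ ρ * A.card := mul_le_mul_of_nonneg_right hρ hAnn
        linarith
      have t3 : (c3 * c5) * ∑ k, σA k ≤ 2 * (ρ + 2 * (c3 * c2)) * (N / 2) := by
        calc (c3 * c5) * ∑ k, σA k ≤ (c3 * c5) * (2 * (ρ + 2 * (c3 * c2)) * A.card) :=
              mul_le_mul_of_nonneg_left hσAt hQ
          _ = 2 * (ρ + 2 * (c3 * c2)) * ((c3 * c5) * A.card) := by ring
          _ ≤ 2 * (ρ + 2 * (c3 * c2)) * (N / 2) := mul_le_mul_of_nonneg_left hQA hκ
      have t2' : 2 * (c3 * c2) * ∑ k, S2 k ≤ 2 * (c3 * c2) * N :=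
        mul_le_mul_of_nonneg_left t2 (by positivity)
      calc ∑ k, (S1 k + 2 * (c3 * c2) * S2 k + (c3 * c5) * σA k)
          = ∑ k, S1 k + 2 * (c3 * c2) * ∑ k, S2 k + (c3 * c5) * ∑ k, σA k := by
            rw [Finset.sum_add_distrib, Finset.sum_add_distrib, Finset.mul_sum, Finset.mul_sum]
        _ ≤ ρ * N + 2 * (c3 * c2) * N + 2 * (ρ + 2 * (c3 * c2)) * (N / 2) := by linarith
        _ = 2 * (ρ + 2 * (c3 * c2)) * N := by ring

end Vale.Agent.Lib.P249
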