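import Mathlib
import Vale.Agent.Lib.P249.Sampling
import Vale.Agent.Lib.P249.Sensitivity

/-!
# Dimension reduction in `ℓ_p` : explicit sums
-/

namespace Vale.Agent.Lib.P249

open Finset

lemma abs_rpow_tri (p : ℝ) (hp : 1 ≤ p) (x y z : ℝ) :
    |x + y + z| ^ p ≤ 3 ^ (p - 1) * (|x| ^ p + |y| ^ p + |z| ^ p) := by
  have h := Real.rpow_sum_le_const_mul_sum_rpow (Finset.univ : Finset (Fin 3)) ![x, y, z] hp
  simp only [Fin.sum_univ_three, Finset.card_univ, Fintype.card_fin] at h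
  simp only [Matrix.cons_val_zero, Matrix.cons_val_one, Matrix.cons_val] at h
  refine le_trans (Real.rpow_le_rpow (abs_nonneg _) (abs_add_three x y z) (by linarith)) ?_
  exact_mod_cast h

/-- number of near neighbours -/
noncomputable def rho (p : ℝ) : ℕ := ⌈2 * ((3 : ℝ) ^ (p - 1) * 5 ^ p)⌉₊ + 2

/-- the sensitivity constant -/
noncomputable def kap (p : ℝ) : ℝ := 2 * ((rho p : ℝ) + 2 * ((3 : ℝ) ^ (p - 1) * 2 ^ p))

lemma kap_nonneg (p : ℝ) : 0 ≤ kap p := by
  unfold kap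
  positivity

lemma lam_scale {K : Type*} [Fintype K] (p : ℝ) (hp : 1 ≤ p) (f h : K → ℝ) (c : ℝ) (hc : 0 ≤ c)
    (hle : (∑ k, |f k| ^ p) ^ (1 / p) ≤ c * (∑ k, |h k| ^ p) ^ (1 / p)) :
    ∑ k, |f k| ^ p ≤ c ^ p * ∑ k, |h k| ^ p := by
  have hp0 : 0 < p := by linarith
  have hf : 0 ≤ ∑ k, |f k| ^ p := Finset.sum_nonneg (fun k _ => Real.rpow_nonneg (abs_nonneg _) p)
  have hh : 0 ≤ ∑ k, |h k| ^ p := Finset.sum_nonneg (fun k _ => Real.rpow_nonneg (abs_nonneg _) p)
  have h1 := Real.rpow_le_rpow (Real.rpow_nonneg hf _) hle hp0.le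
  rw [Real.mul_rpow hc (Real.rpow_nonneg hh _), ← Real.rpow_mul hf, ← Real.rpow_mul hh,
    one_div_mul_cancel hp0.ne', Real.rpow_one, Real.rpow_one] at h1
  exact h1

/-- **Linear total sensitivity of the differences of finitely many points of `ℓ_p`.** -/
theorem lp_sensitivity {ι K : Type*} [DecidableEq ι] [Fintype K] (p : ℝ) (hp : 1 ≤ p)
    (a : ι → K → ℝ) (X : Finset ι) :
    ∃ σ : K → ℝ, (∀ k, 0 ≤ σ k) ∧
      (∀ u ∈ X, ∀ v ∈ X, ∀ k, |a u k - a v k| ^ p ≤ σ k * ∑ k', |a u k' - a v k'| ^ p) ∧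
      ∑ k, σ k ≤ kap p * X.card := by
  have hp0 : 0 < p := by linarith
  refine sensitivity (fun u v => (∑ k, |a u k - a v k| ^ p) ^ (1 / p))
    (fun u v => ∑ k, |a u k - a v k| ^ p) (fun u v k => |a u k - a v k| ^ p)
    (2 ^ p) (3 ^ (p - 1)) (5 ^ p) (by positivity) (by positivity) (by positivity)
    ?_ ?_ ?_ ?_ ?_ ?_ ?_ ?_ (rho p) ?_ ?_ X
  · intro u v
    simp only [abs_sub_comm]
  · intro u v w
    have h := Real.Lp_add_le Finset.univ (fun k => a u k - a v k) (fun k => a v k - a w k) hp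
    simpa using h
  · intro u v k
    exact Real.rpow_nonneg (abs_nonneg _) p
  · intro u v k
    simp only [abs_sub_comm]
  · intro u v
    rfl
  · intro u x y v k
    have h := abs_rpow_tri p hp (a u k - a x k) (a x k - a y k) (a y k - a v k)
    have e : a u k - a x k + (a x k - a y k) + (a y k - a v k) = a u k - a v k := by ring
    rw [e] at h
    exact h
  · intro u v u' v' h
    exact lam_scale p hp _ _ 2 (by norm_num) h
  · intro u v u' v' h
    exact lam_scale p hp _ _ 5 (by norm_num) h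
  · unfold rho
    push_cast
    have := Nat.le_ceil (2 * ((3 : ℝ) ^ (p - 1) * 5 ^ p))
    linarith
  · unfold rho
    omega

/-- constant in the dimension bound -/
noncomputable def Cdim (p ε : ℝ) : ℝ := 4 * (kap p + 1) / min (cp ε) (cm ε)

lemma Cdim_nonneg (p ε : ℝ) (hε0 : 0 < ε) (hε1 : ε < 1) : 0 ≤ Cdim p ε := by
  unfold Cdim
  have := kap_nonneg p
  have := lt_min (cp_pos hε0) (cm_pos hε0 hε1)
  positivity

/-- **Coordinate sampling.**  `n` points of `ℓ_p(K)` are mapped to `ℓ_p^d` by selecting and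
rescaling `d` coordinates, all `p`-th powers of distances being preserved up to `1 ± ε`,
as soon as `d ≥ Cdim p ε * n * log n`. -/
theorem core {K : Type*} [Fintype K] [Nonempty K] [DecidableEq K]
    (p : ℝ) (hp : 1 ≤ p) (ε : ℝ) (hε0 : 0 < ε) (hε1 : ε < 1) (n : ℕ) (hn : 2 ≤ n)
    (d : ℕ) (hd : Cdim p ε * n * Real.log n ≤ d) (a : Fin n → K → ℝ) :
    ∃ (κ : Fin d → K) (c : Fin d → ℝ), ∀ i j,
      (1 - ε) * ∑ k, |a i k - a j k| ^ p ≤ ∑ t, |c t * a i (κ t) - c t * a j (κ t)| ^ p ∧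
      ∑ t, |c t * a i (κ t) - c t * a j (κ t)| ^ p ≤ (1 + ε) * ∑ k, |a i k - a j k| ^ p := by
  have hp0 : 0 < p := by linarith
  obtain ⟨σ, hσ0, hσb, hσt⟩ := lp_sensitivity p hp a Finset.univ
  rw [Finset.card_univ, Fintype.card_fin] at hσt
  have hnR : (2 : ℝ) ≤ (n : ℝ) := by exact_mod_cast hn
  have hnpos : (0 : ℝ) < (n : ℝ) := by linarith
  have hM : (0 : ℝ) < (Fintype.card K : ℝ) := by exact_mod_cast Fintype.card_pos
  set σ' : K → ℝ := fun k => σ k + 1 / (Fintype.card K : ℝ) with hσ'def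
  have hσ' : ∀ k, 0 < σ' k := fun k => add_pos_of_nonneg_of_pos (hσ0 k) (by positivity)
  set S : ℝ := ∑ k, σ' k with hSdef
  have hS1 : S = ∑ k, σ k + 1 := by
    rw [hSdef, Finset.sum_add_distrib, Finset.sum_const, Finset.card_univ, nsmul_eq_mul,
      mul_one_div_cancel hM.ne']
  have hS0 : 0 < S := by
    rw [hS1]
    have := Finset.sum_nonneg (fun k (_ : k ∈ Finset.univ) => hσ0 k)
    linarith
  have hκ0 := kap_nonneg p
  have hSle : S ≤ (kap p + 1) * n := by
    rw [hS1]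
    nlinarith
  set Λ : Fin n → Fin n → ℝ := fun i j => ∑ k, |a i k - a j k| ^ p with hΛdef
  have hg0 : ∀ i j k, 0 ≤ |a i k - a j k| ^ p := fun i j k => Real.rpow_nonneg (abs_nonneg _) p
  have hΛ0 : ∀ i j, 0 ≤ Λ i j := fun i j => Finset.sum_nonneg (fun k _ => hg0 i j k)
  set F : Finset (Fin n × Fin n) := Finset.univ.filter (fun e => Λ e.1 e.2 ≠ 0) with hFdef
  have hFmem : ∀ e ∈ F, 0 < Λ e.1 e.2 := by
    intro e he
    exact lt_of_le_of_ne (hΛ0 _ _) (Ne.symm (Finset.mem_filter.mp he).2)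
  have hFcard : (F.card : ℝ) ≤ (n : ℝ) ^ 2 := by
    have h1 : F.card ≤ n ^ 2 := by
      calc F.card ≤ (Finset.univ : Finset (Fin n × Fin n)).card := Finset.card_filter_le _ _
        _ = n ^ 2 := by
            rw [Finset.card_univ, Fintype.card_prod, Fintype.card_fin]
            ring
    exact_mod_cast h1
  set w : Fin n × Fin n → K → ℝ := fun e k => |a e.1 k - a e.2 k| ^ p / Λ e.1 e.2 with hwdef
  have hw0 : ∀ e ∈ F, ∀ k, 0 ≤ w e k := fun e _ k => div_nonneg (hg0 _ _ _) (hΛ0 _ _)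
  have hwσ : ∀ e ∈ F, ∀ k, w e k ≤ σ' k := by
    intro e he k
    have h1 : w e k ≤ σ k :=
      (div_le_iff₀ (hFmem e he)).mpr (hσb e.1 (Finset.mem_univ _) e.2 (Finset.mem_univ _) k)
    have h2 : (0 : ℝ) < 1 / (Fintype.card K : ℝ) := by positivity
    have h3 : σ' k = σ k + 1 / (Fintype.card K : ℝ) := rfl
    linarith
  have hw1 : ∀ e ∈ F, ∑ k, w e k = 1 := by
    intro e he
    rw [hwdef]
    simp only
    rw [← Finset.sum_div]
    exact div_self (hFmem e he).ne'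
  -- the numerical estimate
  have hc0 : 0 < min (cp ε) (cm ε) := lt_min (cp_pos hε0) (cm_pos hε0 hε1)
  set c₀ : ℝ := min (cp ε) (cm ε) with hc₀def
  have hlog : 0 < Real.log n := Real.log_pos (by linarith)
  have hdS : 4 * Real.log n / c₀ ≤ 1 / S * d := by
    rw [one_div_mul_eq_div, le_div_iff₀ hS0]
    calc 4 * Real.log n / c₀ * S ≤ 4 * Real.log n / c₀ * ((kap p + 1) * n) :=
          mul_le_mul_of_nonneg_left hSle (by positivity)
      _ = Cdim p ε * n * Real.log n := by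
          unfold Cdim
          rw [← hc₀def]
          ring
      _ ≤ d := hd
  have hdpos : (0 : ℝ) < (d : ℝ) := by
    have h1 : 0 < 4 * Real.log n / c₀ := by positivity
    have h2 : 0 < 1 / S * d := lt_of_lt_of_le h1 hdS
    have h3 : 0 < 1 / S := by positivity
    exact (pos_iff_pos_of_mul_pos h2).mp h3
  have hexp4 : Real.exp (-(4 * Real.log n)) = ((n : ℝ) ^ 4)⁻¹ := by
    rw [Real.exp_neg, show (4 : ℝ) = ((4 : ℕ) : ℝ) by norm_num, Real.exp_nat_mul,
      Real.exp_log hnpos]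
  have hgen : ∀ c' : ℝ, c₀ ≤ c' → Real.exp (-(c' * (1 / S * d))) ≤ ((n : ℝ) ^ 4)⁻¹ := by
    intro c' hc'
    rw [← hexp4]
    refine Real.exp_le_exp.mpr (neg_le_neg ?_)
    have hnn : 0 ≤ 1 / S * (d : ℝ) := by positivity
    calc 4 * Real.log n = c₀ * (4 * Real.log n / c₀) := by field_simp
      _ ≤ c₀ * (1 / S * d) := mul_le_mul_of_nonneg_left hdS hc0.le
      _ ≤ c' * (1 / S * d) := mul_le_mul_of_nonneg_right hc' hnn
  have hunion : F.card * (Real.exp (-(cp ε * (1 / S * d))) + Real.exp (-(cm ε * (1 / S * d))))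
      < 1 := by
    have h1 := hgen (cp ε) (min_le_left _ _)
    have h2 := hgen (cm ε) (min_le_right _ _)
    have h3 : (0 : ℝ) ≤ ((n : ℝ) ^ 4)⁻¹ := by positivity
    calc F.card * (Real.exp (-(cp ε * (1 / S * d))) + Real.exp (-(cm ε * (1 / S * d))))
        ≤ (n : ℝ) ^ 2 * (2 * ((n : ℝ) ^ 4)⁻¹) := by
          refine mul_le_mul hFcard (by linarith) ?_ (by positivity)
          have := Real.exp_pos (-(cp ε * (1 / S * d)))
          have := Real.exp_pos (-(cm ε * (1 / S * d)))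
          linarith
      _ = 2 / (n : ℝ) ^ 2 := by field_simp
      _ < 1 := by
          rw [div_lt_one (by positivity)]
          nlinarith
  obtain ⟨κ, hκ⟩ := exists_sample σ' hσ' S rfl hS0 F w hw0 hwσ hw1 ε hε0 hε1 d hunion
  refine ⟨κ, fun t => (S / (d * σ' (κ t))) ^ (1 / p), ?_⟩
  have hterm : ∀ i j t, |(S / (d * σ' (κ t))) ^ (1 / p) * a i (κ t)
      - (S / (d * σ' (κ t))) ^ (1 / p) * a j (κ t)| ^ p
      = S / (d * σ' (κ t)) * |a i (κ t) - a j (κ t)| ^ p := by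
    intro i j t
    have hpos : 0 ≤ S / (d * σ' (κ t)) := by
      have := hσ' (κ t)
      positivity
    rw [← mul_sub, abs_mul, Real.mul_rpow (abs_nonneg _) (abs_nonneg _),
      abs_of_nonneg (Real.rpow_nonneg hpos _), ← Real.rpow_mul hpos,
      one_div_mul_cancel hp0.ne', Real.rpow_one]
  intro i j
  simp only [hterm]
  by_cases hΛ : Λ i j = 0
  · have hz : ∀ k, |a i k - a j k| ^ p = 0 := fun k =>
      (Finset.sum_eq_zero_iff_of_nonneg (fun k _ => hg0 i j k)).mp hΛ k (Finset.mem_univ k)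
    simp [hz]
  · have hmem : (i, j) ∈ F := Finset.mem_filter.mpr ⟨Finset.mem_univ _, hΛ⟩
    obtain ⟨h1, h2⟩ := hκ (i, j) hmem
    have hΛpos : 0 < Λ i j := hFmem (i, j) hmem
    have hsum : ∑ t, S / (d * σ' (κ t)) * |a i (κ t) - a j (κ t)| ^ p
        = (S / d * Λ i j) * ∑ t, w (i, j) (κ t) / σ' (κ t) := by
      rw [Finset.mul_sum]
      refine Finset.sum_congr rfl (fun t _ => ?_)
      have := (hσ' (κ t)).ne'
      rw [hwdef]
      simp only
      field_simp
    have hfac : 0 < S / d * Λ i j := by positivity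
    rw [hsum]
    constructor
    · calc (1 - ε) * Λ i j = (S / d * Λ i j) * ((1 - ε) * (1 / S * d)) := by field_simp
        _ ≤ (S / d * Λ i j) * ∑ t, w (i, j) (κ t) / σ' (κ t) :=
            mul_le_mul_of_nonneg_left h1.le hfac.le
    · calc (S / d * Λ i j) * ∑ t, w (i, j) (κ t) / σ' (κ t)
          ≤ (S / d * Λ i j) * ((1 + ε) * (1 / S * d)) := mul_le_mul_of_nonneg_left h2.le hfac.le
        _ = (1 + ε) * Λ i j := by field_simp

end Vale.Agent.Lib.P249
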