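import Mathlib
import Vale.Agent.Lib.P249.Core

/-!
# Explicit dependence on the accuracy
-/

namespace Vale.Agent.Lib.P249

open Finset

lemma cp_ge {ε : ℝ} (h0 : 0 < ε) (h1 : ε < 1) : ε ^ 2 / 4 ≤ cp ε := by
  have h := Real.le_log_one_add_of_nonneg h0.le
  have h2 : (1 + ε) * (2 * ε / (ε + 2)) ≤ (1 + ε) * Real.log (1 + ε) :=
    mul_le_mul_of_nonneg_left h (by linarith)
  have h3 : (1 + ε) * (2 * ε / (ε + 2)) - ε = ε ^ 2 / (ε + 2) := by
    field_simp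
    ring
  have h4 : ε ^ 2 / 4 ≤ ε ^ 2 / (ε + 2) :=
    div_le_div_of_nonneg_left (by positivity) (by linarith) (by linarith)
  unfold cp
  linarith

lemma cm_ge {ε : ℝ} (h0 : 0 < ε) (h1 : ε < 1) : ε ^ 2 / 4 ≤ cm ε := by
  set z : ℝ := Real.sqrt (1 - ε) with hz
  have hzpos : 0 < z := Real.sqrt_pos.mpr (by linarith)
  have hz2 : z ^ 2 = 1 - ε := Real.sq_sqrt (by linarith)
  have hzle : z ≤ 1 - ε / 2 := by
    rw [hz]
    refine (Real.sqrt_le_left (by linarith)).mpr ?_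
    nlinarith
  have hlog : Real.log (1 - ε) = 2 * Real.log z := by
    rw [← hz2, Real.log_pow]
    norm_num
  have h := Real.one_sub_inv_le_log_of_pos hzpos
  have h2 : z ^ 2 * (2 * (1 - z⁻¹)) ≤ z ^ 2 * (2 * Real.log z) :=
    mul_le_mul_of_nonneg_left (by linarith) (by positivity)
  have h3 : z ^ 2 * (2 * (1 - z⁻¹)) = 2 * z ^ 2 - 2 * z := by
    field_simp
  unfold cm
  rw [hlog, ← hz2]
  have h5 : ε = 1 - z ^ 2 := by linarith
  nlinarith

lemma Cdim_le (p : ℝ) {ε : ℝ} (h0 : 0 < ε) (h1 : ε < 1) :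
    Cdim p ε ≤ 16 * (kap p + 1) / ε ^ 2 := by
  have hk := kap_nonneg p
  have hmin : ε ^ 2 / 4 ≤ min (cp ε) (cm ε) := le_min (cp_ge h0 h1) (cm_ge h0 h1)
  unfold Cdim
  calc 4 * (kap p + 1) / min (cp ε) (cm ε) ≤ 4 * (kap p + 1) / (ε ^ 2 / 4) :=
        div_le_div_of_nonneg_left (by positivity) (by positivity) hmin
    _ = 16 * (kap p + 1) / ε ^ 2 := by
        field_simp
        ring

/-- version of `core` for a possibly empty coordinate set -/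
theorem core' {K : Type*} [Fintype K] [DecidableEq K]
    (p : ℝ) (hp : 1 ≤ p) (ε : ℝ) (hε0 : 0 < ε) (hε1 : ε < 1) (n : ℕ) (hn : 2 ≤ n)
    (d : ℕ) (hd : Cdim p ε * n * Real.log n ≤ d) (a : Fin n → K → ℝ) :
    ∃ f : Fin n → Fin d → ℝ, ∀ i j,
      (1 - ε) * ∑ k, |a i k - a j k| ^ p ≤ ∑ t, |f i t - f j t| ^ p ∧
      ∑ t, |f i t - f j t| ^ p ≤ (1 + ε) * ∑ k, |a i k - a j k| ^ p := by
  have hp0 : 0 < p := by linarith
  rcases isEmpty_or_nonempty K with hK | hK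
  · refine ⟨fun _ _ => 0, fun i j => ?_⟩
    simp [Real.zero_rpow hp0.ne']
  · obtain ⟨κ, c, h⟩ := core p hp ε hε0 hε1 n hn d hd a
    exact ⟨fun i t => c t * a i (κ t), h⟩

end Vale.Agent.Lib.P249
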