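import Mathlib

/-!
# P249 : basic facts on the standard Gaussian measure of a Euclidean space
-/

namespace Vale.Agent.Lib.P249

open MeasureTheory ProbabilityTheory
open scoped ENNReal NNReal

/-- The `p`-th absolute moment of a standard real Gaussian variable. -/
noncomputable def mom (p : ℝ) : ℝ≥0∞ := ∫⁻ t, ENNReal.ofReal (|t| ^ p) ∂(gaussianReal 0 1)

/-- Law of a linear functional under the standard Gaussian measure, in moment form. -/
theorem lintegral_dual_rpow {E : Type*} [NormedAddCommGroup E] [InnerProductSpace ℝ E]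
    [FiniteDimensional ℝ E] [MeasurableSpace E] [BorelSpace E] (l : StrongDual ℝ E)
    (p : ℝ) (hp : 0 ≤ p) :
    ∫⁻ z, ENNReal.ofReal (|l z| ^ p) ∂(stdGaussian E) = ENNReal.ofReal (‖l‖ ^ p) * mom p := by
  have hmeas : Measurable (fun t : ℝ => ENNReal.ofReal (|t| ^ p)) := by fun_prop
  have h1 : ∫⁻ z, ENNReal.ofReal (|l z| ^ p) ∂(stdGaussian E)
      = ∫⁻ t, ENNReal.ofReal (|t| ^ p) ∂((stdGaussian E).map l) := by
    rw [lintegral_map hmeas l.continuous.measurable]
  have h2 : (stdGaussian E).map l = (gaussianReal 0 1).map (fun x => ‖l‖ * x) := by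
    rw [IsGaussian.map_eq_gaussianReal, gaussianReal_map_const_mul,
      integral_strongDual_stdGaussian, variance_dual_stdGaussian]
    congr 1
    · simp
    · ext
      simp
  rw [h1, h2, lintegral_map hmeas (by fun_prop), mom, ← lintegral_const_mul _ hmeas]
  congr 1
  ext t
  rw [abs_mul, abs_of_nonneg (norm_nonneg l), Real.mul_rpow (norm_nonneg _) (abs_nonneg _),
    ENNReal.ofReal_mul (by positivity)]

/-- Products of absolutely continuous measures are absolutely continuous. -/
theorem pi_ac (k : ℕ) (μ ν : Measure ℝ) [SigmaFinite μ] [SigmaFinite ν] (h : μ ≪ ν) :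
    Measure.pi (fun _ : Fin k => μ) ≪ Measure.pi (fun _ : Fin k => ν) := by
  induction k with
  | zero =>
    have : Measure.pi (fun _ : Fin 0 => μ) = Measure.pi (fun _ : Fin 0 => ν) := by
      rw [Measure.pi_of_empty, Measure.pi_of_empty]
    rw [this]
  | succ k ih =>
    have h1 := measurePreserving_piFinSuccAbove (fun _ : Fin (k + 1) => μ) 0
    have h2 := measurePreserving_piFinSuccAbove (fun _ : Fin (k + 1) => ν) 0
    have h3 : μ.prod (Measure.pi (fun _ : Fin k => μ)) ≪ ν.prod (Measure.pi (fun _ : Fin k => ν)) :=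
      h.prod ih
    intro s hs
    set e := MeasurableEquiv.piFinSuccAbove (fun _ : Fin (k + 1) => ℝ) 0 with he
    have e1 : Measure.pi (fun _ : Fin (k + 1) => ν) s
        = (ν.prod (Measure.pi (fun _ : Fin k => ν))) (e.symm ⁻¹' s) := by
      rw [← h2.map_eq, e.map_apply]
      congr 1
      ext x
      simp
    have e2 : Measure.pi (fun _ : Fin (k + 1) => μ) s
        = (μ.prod (Measure.pi (fun _ : Fin k => μ))) (e.symm ⁻¹' s) := by
      rw [← h1.map_eq, e.map_apply]
      congr 1
      ext x
      simp
    rw [e2]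
    rw [e1] at hs
    exact h3 hs

/-- The standard Gaussian measure is absolutely continuous with respect to Lebesgue measure. -/
theorem stdGaussian_ac (k : ℕ) :
    stdGaussian (EuclideanSpace ℝ (Fin k)) ≪ (volume : Measure (EuclideanSpace ℝ (Fin k))) := by
  rw [← map_pi_eq_stdGaussian, ← (PiLp.volume_preserving_toLp (Fin k)).map_eq]
  refine Measure.AbsolutelyContinuous.map ?_ (by fun_prop)
  rw [volume_pi]
  exact pi_ac k _ _ (gaussianReal_absolutelyContinuous 0 one_ne_zero)

end Vale.Agent.Lib.P249
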