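import Mathlib
import Vale.Agent.Lib.P249.GaussBasic

/-!
# P249 : dimension free concentration of Lipschitz functions of a Gaussian vector (moment form)

The proof is the rotation argument of Maurey and Pisier.
-/

namespace Vale.Agent.Lib.P249

open MeasureTheory ProbabilityTheory
open scoped ENNReal NNReal

/-- The curve `θ ↦ cos θ • x + sin θ • y`. -/
noncomputable def crv {E : Type*} [NormedAddCommGroup E] [NormedSpace ℝ E] (w : E × E) (θ : ℝ) : E :=
  Real.cos θ • w.1 + Real.sin θ • w.2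

section
variable {E : Type*} [NormedAddCommGroup E] [NormedSpace ℝ E]

theorem crv_zero (w : E × E) : crv w 0 = w.1 := by simp [crv]

theorem crv_pi_div_two (w : E × E) : crv w (Real.pi / 2) = w.2 := by simp [crv]

theorem crv_rotation (w : E × E) (θ s : ℝ) :
    crv (ContinuousLinearMap.rotation θ w) s = crv w (θ + s) := by
  simp only [crv, ContinuousLinearMap.rotation_apply, Real.cos_add, Real.sin_add]
  module

theorem crv_continuous : Continuous (Function.uncurry (crv (E := E))) := by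
  unfold Function.uncurry crv
  fun_prop

theorem crv_hasDerivAt_zero (w : E × E) : HasDerivAt (crv w) w.2 0 := by
  have h1 : HasDerivAt (fun θ : ℝ => Real.cos θ • w.1) ((-Real.sin 0) • w.1) 0 :=
    (Real.hasDerivAt_cos 0).smul_const w.1
  have h2 : HasDerivAt (fun θ : ℝ => Real.sin θ • w.2) ((Real.cos 0) • w.2) 0 :=
    (Real.hasDerivAt_sin 0).smul_const w.2
  have h3 := h1.add h2
  have e : (-Real.sin 0) • w.1 + (Real.cos 0) • w.2 = w.2 := by simp
  rw [e] at h3
  exact h3

theorem crv_lipschitz (w : E × E) :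
    LipschitzWith (‖w.1‖₊ + ‖w.2‖₊) (crv w) := by
  refine LipschitzWith.of_dist_le_mul (fun a b => ?_)
  rw [dist_eq_norm, Real.dist_eq]
  have e : crv w a - crv w b
      = (Real.cos a - Real.cos b) • w.1 + (Real.sin a - Real.sin b) • w.2 := by
    simp only [crv, sub_smul]
    abel
  rw [e]
  calc ‖(Real.cos a - Real.cos b) • w.1 + (Real.sin a - Real.sin b) • w.2‖
      ≤ ‖(Real.cos a - Real.cos b) • w.1‖ + ‖(Real.sin a - Real.sin b) • w.2‖ := norm_add_le _ _
    _ = |Real.cos a - Real.cos b| * ‖w.1‖ + |Real.sin a - Real.sin b| * ‖w.2‖ := by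
        rw [norm_smul, norm_smul, Real.norm_eq_abs, Real.norm_eq_abs]
    _ ≤ |a - b| * ‖w.1‖ + |a - b| * ‖w.2‖ := by
        refine add_le_add ?_ ?_
        · exact mul_le_mul_of_nonneg_right (Real.abs_cos_sub_cos_le a b) (norm_nonneg _)
        · exact mul_le_mul_of_nonneg_right (Real.abs_sin_sub_sin_le a b) (norm_nonneg _)
    _ = ((‖w.1‖₊ + ‖w.2‖₊ : ℝ≥0) : ℝ) * |a - b| := by
        push_cast
        ring

end

/-- Hölder's inequality on an interval, in the form needed below. -/
theorem rpow_abs_integral_le (g : ℝ → ℝ) (hg : Measurable g) (b : ℝ) (hb : 0 ≤ b)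
    (p : ℝ) (hp : 1 ≤ p) :
    ENNReal.ofReal (|∫ θ in (0 : ℝ)..b, g θ| ^ p)
      ≤ ENNReal.ofReal (b ^ (p - 1)) * ∫⁻ θ in Set.Ioc 0 b, ENNReal.ofReal (|g θ| ^ p) := by
  have hp0 : 0 < p := by linarith
  set ν : Measure ℝ := volume.restrict (Set.Ioc 0 b) with hν
  have hνu : ν Set.univ = ENNReal.ofReal b := by
    rw [hν, Measure.restrict_apply_univ, Real.volume_Ioc, sub_zero]
  have h1 : ENNReal.ofReal |∫ θ in (0 : ℝ)..b, g θ| ≤ ∫⁻ θ, ‖g θ‖ₑ ∂ν := by
    rw [intervalIntegral.integral_of_le hb, ← Real.enorm_eq_ofReal_abs]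
    exact enorm_integral_le_lintegral_enorm _
  have hq0 : ENNReal.ofReal p ≠ 0 := by
    simp only [ne_eq, ENNReal.ofReal_eq_zero, not_le]
    exact hp0
  have h2 : ∫⁻ θ, ‖g θ‖ₑ ∂ν
      ≤ (∫⁻ θ, ‖g θ‖ₑ ^ p ∂ν) ^ (1 / p) * (ENNReal.ofReal b) ^ (1 - 1 / p) := by
    have := eLpNorm_le_eLpNorm_mul_rpow_measure_univ (μ := ν) (f := g) (p := 1)
      (q := ENNReal.ofReal p) (by
        rw [← ENNReal.ofReal_one]
        exact ENNReal.ofReal_le_ofReal hp) hg.aestronglyMeasurable
    rw [eLpNorm_one_eq_lintegral_enorm,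
      eLpNorm_eq_lintegral_rpow_enorm_toReal hq0 ENNReal.ofReal_ne_top,
      ENNReal.toReal_ofReal hp0.le, hνu] at this
    simpa using this
  have h3 : ENNReal.ofReal (|∫ θ in (0 : ℝ)..b, g θ| ^ p)
      = (ENNReal.ofReal |∫ θ in (0 : ℝ)..b, g θ|) ^ p :=
    (ENNReal.ofReal_rpow_of_nonneg (abs_nonneg _) hp0.le).symm
  rw [h3]
  calc (ENNReal.ofReal |∫ θ in (0 : ℝ)..b, g θ|) ^ p
      ≤ ((∫⁻ θ, ‖g θ‖ₑ ^ p ∂ν) ^ (1 / p) * (ENNReal.ofReal b) ^ (1 - 1 / p)) ^ p :=
        ENNReal.rpow_le_rpow (h1.trans h2) hp0.le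
    _ = (∫⁻ θ, ‖g θ‖ₑ ^ p ∂ν) * (ENNReal.ofReal b) ^ (p - 1) := by
        rw [ENNReal.mul_rpow_of_nonneg _ _ hp0.le, ← ENNReal.rpow_mul, ← ENNReal.rpow_mul,
          one_div_mul_cancel hp0.ne', ENNReal.rpow_one]
        congr 2
        field_simp
    _ = ENNReal.ofReal (b ^ (p - 1)) * ∫⁻ θ in Set.Ioc 0 b, ENNReal.ofReal (|g θ| ^ p) := by
        rw [mul_comm, ENNReal.ofReal_rpow_of_nonneg hb (by linarith)]
        congr 1
        refine lintegral_congr (fun θ => ?_)
        rw [Real.enorm_eq_ofReal_abs, ENNReal.ofReal_rpow_of_nonneg (abs_nonneg _) hp0.le]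

section
variable {E : Type*} [NormedAddCommGroup E] [InnerProductSpace ℝ E] [FiniteDimensional ℝ E]
  [MeasurableSpace E] [BorelSpace E]

theorem measurable_deriv_crv (h : E → ℝ) (hc : Continuous h) :
    Measurable (fun q : (E × E) × ℝ => deriv (fun θ => h (crv q.1 θ)) q.2) := by
  have hφc : Continuous (Function.uncurry (fun (w : E × E) (θ : ℝ) => h (crv w θ))) :=
    hc.comp crv_continuous
  exact measurable_deriv_with_param hφc

theorem measurable_deriv_crv_zero (h : E → ℝ) (hc : Continuous h) :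
    Measurable (fun w : E × E => deriv (fun θ => h (crv w θ)) 0) := by
  have h1 : Measurable (fun w : E × E => ((w, (0 : ℝ)) : (E × E) × ℝ)) :=
    measurable_id.prodMk measurable_const
  exact (measurable_deriv_crv h hc).comp h1

omit [FiniteDimensional ℝ E] [MeasurableSpace E] [BorelSpace E] in
/-- step 1 : the fundamental theorem of calculus and Hölder -/
theorem conc_step1 (h : E → ℝ) (L : ℝ≥0) (hL : LipschitzWith L h) (p : ℝ) (hp : 1 ≤ p)
    (w : E × E) :
    ENNReal.ofReal (|h w.2 - h w.1| ^ p)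
      ≤ ENNReal.ofReal ((Real.pi / 2) ^ (p - 1)) *
        ∫⁻ θ in Set.Ioc 0 (Real.pi / 2),
          ENNReal.ofReal (|deriv (fun θ => h (crv w θ)) θ| ^ p) := by
  have hpi : 0 ≤ Real.pi / 2 := by positivity
  have hlip : LipschitzWith (L * (‖w.1‖₊ + ‖w.2‖₊)) (fun θ => h (crv w θ)) :=
    hL.comp (crv_lipschitz w)
  have hac : AbsolutelyContinuousOnInterval (fun θ => h (crv w θ)) 0 (Real.pi / 2) :=
    (hlip.lipschitzOnWith (s := Set.uIcc 0 (Real.pi / 2))).absolutelyContinuousOnInterval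
  have hftc := hac.integral_deriv_eq_sub
  simp only [crv_zero, crv_pi_div_two] at hftc
  rw [← hftc]
  exact rpow_abs_integral_le _ (measurable_deriv _) _ hpi p hp

/-- step 2 : rotation invariance -/
theorem conc_step2 (h : E → ℝ) (hc : Continuous h) (p : ℝ) (θ : ℝ) :
    ∫⁻ w, ENNReal.ofReal (|deriv (fun θ => h (crv w θ)) θ| ^ p)
        ∂((stdGaussian E).prod (stdGaussian E))
      = ∫⁻ w, ENNReal.ofReal (|deriv (fun θ => h (crv w θ)) 0| ^ p)
        ∂((stdGaussian E).prod (stdGaussian E)) := by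
  have hGm : Measurable (fun w : E × E =>
      ENNReal.ofReal (|deriv (fun θ => h (crv w θ)) 0| ^ p)) :=
    (((measurable_deriv_crv_zero h hc).abs).pow_const p).ennreal_ofReal
  have h1 : ∀ w : E × E, deriv (fun θ => h (crv w θ)) θ
      = deriv (fun s => h (crv (ContinuousLinearMap.rotation θ w) s)) 0 := by
    intro w
    have e : (fun s => h (crv (ContinuousLinearMap.rotation θ w) s))
        = fun s => (fun θ => h (crv w θ)) (θ + s) := by
      ext s
      simp only [crv_rotation]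
    have e2 := deriv_comp_const_add (fun θ => h (crv w θ)) θ 0
    rw [add_zero] at e2
    rw [e]
    exact e2.symm
  have h2 : ((stdGaussian E).prod (stdGaussian E)).map (ContinuousLinearMap.rotation θ)
      = (stdGaussian E).prod (stdGaussian E) :=
    IsGaussian.map_rotation_eq_self (by simp) θ
  calc ∫⁻ w, ENNReal.ofReal (|deriv (fun θ => h (crv w θ)) θ| ^ p)
        ∂((stdGaussian E).prod (stdGaussian E))
      = ∫⁻ w, (fun w : E × E => ENNReal.ofReal (|deriv (fun θ => h (crv w θ)) 0| ^ p))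
          (ContinuousLinearMap.rotation θ w) ∂((stdGaussian E).prod (stdGaussian E)) := by
        refine lintegral_congr (fun w => ?_)
        rw [h1 w]
    _ = ∫⁻ w, ENNReal.ofReal (|deriv (fun θ => h (crv w θ)) 0| ^ p)
          ∂(((stdGaussian E).prod (stdGaussian E)).map (ContinuousLinearMap.rotation θ)) :=
        (lintegral_map hGm (ContinuousLinearMap.rotation θ).continuous.measurable).symm
    _ = _ := by rw [h2]

/-- step 3 : the derivative at zero -/
theorem conc_step3 (h : E → ℝ) (L : ℝ≥0) (hL : LipschitzWith L h) (p : ℝ) (hp : 0 ≤ p)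
    (hdiff : ∀ᵐ x ∂(stdGaussian E), DifferentiableAt ℝ h x) :
    ∫⁻ w, ENNReal.ofReal (|deriv (fun θ => h (crv w θ)) 0| ^ p)
        ∂((stdGaussian E).prod (stdGaussian E))
      ≤ ENNReal.ofReal ((L : ℝ) ^ p) * mom p := by
  have hGm : Measurable (fun w : E × E =>
      ENNReal.ofReal (|deriv (fun θ => h (crv w θ)) 0| ^ p)) :=
    (((measurable_deriv_crv_zero h hL.continuous).abs).pow_const p).ennreal_ofReal
  rw [lintegral_prod _ hGm.aemeasurable]
  calc ∫⁻ x, ∫⁻ y, ENNReal.ofReal (|deriv (fun θ => h (crv (x, y) θ)) 0| ^ p)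
        ∂(stdGaussian E) ∂(stdGaussian E)
      ≤ ∫⁻ _x, ENNReal.ofReal ((L : ℝ) ^ p) * mom p ∂(stdGaussian E) := by
        refine lintegral_mono_ae ?_
        filter_upwards [hdiff] with x hx
        have h1 : ∀ y, ENNReal.ofReal (|deriv (fun θ => h (crv (x, y) θ)) 0| ^ p)
            = ENNReal.ofReal (|fderiv ℝ h x y| ^ p) := by
          intro y
          have h2 : HasDerivAt (fun θ => h (crv (x, y) θ)) (fderiv ℝ h x y) 0 := by
            have h3 : HasFDerivAt h (fderiv ℝ h x) (crv (x, y) 0) := by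
              rw [crv_zero]
              exact hx.hasFDerivAt
            exact h3.comp_hasDerivAt 0 (crv_hasDerivAt_zero (x, y))
          rw [h2.deriv]
        simp_rw [h1]
        rw [lintegral_dual_rpow _ p hp]
        refine mul_le_mul_left ?_ _
        refine ENNReal.ofReal_le_ofReal ?_
        exact Real.rpow_le_rpow (norm_nonneg _) (norm_fderiv_le_of_lipschitz ℝ hL) hp
    _ = ENNReal.ofReal ((L : ℝ) ^ p) * mom p := by
        rw [lintegral_const, measure_univ, mul_one]

/-- **Gaussian concentration, moment form** (Maurey, Pisier), assuming almost everywhere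
differentiability. -/
theorem gauss_conc_aux (h : E → ℝ) (L : ℝ≥0) (hL : LipschitzWith L h) (p : ℝ) (hp : 1 ≤ p)
    (hdiff : ∀ᵐ x ∂(stdGaussian E), DifferentiableAt ℝ h x) :
    ∫⁻ w : E × E, ENNReal.ofReal (|h w.2 - h w.1| ^ p) ∂((stdGaussian E).prod (stdGaussian E))
      ≤ ENNReal.ofReal ((Real.pi / 2) ^ p * (L : ℝ) ^ p) * mom p := by
  have hp0 : 0 < p := by linarith
  have hDm := measurable_deriv_crv h hL.continuous
  have hFm : Measurable (fun q : (E × E) × ℝ =>
      ENNReal.ofReal (|deriv (fun θ => h (crv q.1 θ)) q.2| ^ p)) :=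
    ((hDm.abs).pow_const p).ennreal_ofReal
  calc ∫⁻ w : E × E, ENNReal.ofReal (|h w.2 - h w.1| ^ p) ∂((stdGaussian E).prod (stdGaussian E))
      ≤ ∫⁻ w : E × E, ENNReal.ofReal ((Real.pi / 2) ^ (p - 1)) *
          (∫⁻ θ in Set.Ioc 0 (Real.pi / 2),
            ENNReal.ofReal (|deriv (fun θ => h (crv w θ)) θ| ^ p))
          ∂((stdGaussian E).prod (stdGaussian E)) :=
        lintegral_mono (conc_step1 h L hL p hp)
    _ = ENNReal.ofReal ((Real.pi / 2) ^ (p - 1)) *
          ∫⁻ w : E × E, (∫⁻ θ in Set.Ioc 0 (Real.pi / 2),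
            ENNReal.ofReal (|deriv (fun θ => h (crv w θ)) θ| ^ p))
            ∂((stdGaussian E).prod (stdGaussian E)) := by
        refine lintegral_const_mul _ ?_
        exact hFm.lintegral_prod_right'
    _ = ENNReal.ofReal ((Real.pi / 2) ^ (p - 1)) *
          ∫⁻ θ in Set.Ioc 0 (Real.pi / 2), (∫⁻ w : E × E,
            ENNReal.ofReal (|deriv (fun θ => h (crv w θ)) θ| ^ p)
            ∂((stdGaussian E).prod (stdGaussian E))) := by
        congr 1
        refine lintegral_lintegral_swap ?_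
        exact hFm.aemeasurable
    _ = ENNReal.ofReal ((Real.pi / 2) ^ (p - 1)) *
          ∫⁻ _θ in Set.Ioc 0 (Real.pi / 2), (∫⁻ w : E × E,
            ENNReal.ofReal (|deriv (fun θ => h (crv w θ)) 0| ^ p)
            ∂((stdGaussian E).prod (stdGaussian E))) := by
        congr 1
        refine lintegral_congr (fun θ => ?_)
        exact conc_step2 h hL.continuous p θ
    _ = ENNReal.ofReal ((Real.pi / 2) ^ (p - 1)) *
          ((∫⁻ w : E × E, ENNReal.ofReal (|deriv (fun θ => h (crv w θ)) 0| ^ p)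
            ∂((stdGaussian E).prod (stdGaussian E))) * ENNReal.ofReal (Real.pi / 2)) := by
        rw [lintegral_const, Measure.restrict_apply_univ, Real.volume_Ioc, sub_zero]
    _ ≤ ENNReal.ofReal ((Real.pi / 2) ^ (p - 1)) *
          ((ENNReal.ofReal ((L : ℝ) ^ p) * mom p) * ENNReal.ofReal (Real.pi / 2)) := by
        gcongr
        exact conc_step3 h L hL p hp0.le hdiff
    _ = ENNReal.ofReal ((Real.pi / 2) ^ p * (L : ℝ) ^ p) * mom p := by
        have e : (Real.pi / 2) ^ p = (Real.pi / 2) ^ (p - 1) * (Real.pi / 2) := by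
          rw [Real.rpow_sub_one (by positivity)]
          field_simp
        rw [e, ENNReal.ofReal_mul (by positivity), ENNReal.ofReal_mul (by positivity)]
        ring

end

/-- **Gaussian concentration, moment form** (Maurey, Pisier).  If `h` is `L`-Lipschitz on `ℝ^k` and
`x, y` are independent standard Gaussian vectors then
`E |h y - h x|^p ≤ (π/2)^p L^p E |g|^p`, with `g` a standard real Gaussian variable. -/
theorem gauss_conc (k : ℕ) (h : EuclideanSpace ℝ (Fin k) → ℝ) (L : ℝ≥0) (hL : LipschitzWith L h)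
    (p : ℝ) (hp : 1 ≤ p) :
    ∫⁻ w : EuclideanSpace ℝ (Fin k) × EuclideanSpace ℝ (Fin k),
        ENNReal.ofReal (|h w.2 - h w.1| ^ p)
        ∂((stdGaussian (EuclideanSpace ℝ (Fin k))).prod (stdGaussian (EuclideanSpace ℝ (Fin k))))
      ≤ ENNReal.ofReal ((Real.pi / 2) ^ p * (L : ℝ) ^ p) * mom p :=
  gauss_conc_aux h L hL p hp ((stdGaussian_ac k) hL.ae_differentiableAt_of_real)

end Vale.Agent.Lib.P249
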