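import Mathlib
import Vale.Agent.Lib.P249.GaussConc

/-!
# P249 : a grid in Euclidean space, rounding, and the lower bound for maps into `ℓ_p^d`
-/

namespace Vale.Agent.Lib.P249

open MeasureTheory ProbabilityTheory
open scoped ENNReal NNReal

theorem mom_ne_top (p : ℝ) (hp : 0 < p) : mom p ≠ ⊤ := by
  have h := memLp_id_gaussianReal (μ := 0) (v := 1) p.toNNReal
  have h0 : ((p.toNNReal : ℝ≥0) : ℝ≥0∞) ≠ 0 := by
    simp only [ne_eq, ENNReal.coe_eq_zero, Real.toNNReal_eq_zero, not_le]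
    exact hp
  have h1 := (eLpNorm_lt_top_iff_lintegral_rpow_enorm_lt_top h0 ENNReal.coe_ne_top).mp h.2
  have e : ((p.toNNReal : ℝ≥0) : ℝ≥0∞).toReal = p := by
    simp [hp.le]
  rw [e] at h1
  have e2 : mom p = ∫⁻ a, ‖id a‖ₑ ^ p ∂(gaussianReal 0 1) := by
    rw [mom]
    refine lintegral_congr (fun t => ?_)
    rw [id, Real.enorm_eq_ofReal_abs, ENNReal.ofReal_rpow_of_nonneg (abs_nonneg _) hp.le]
  rw [e2]
  exact h1.ne

theorem mom_pos (p : ℝ) : 0 < mom p := by
  rw [pos_iff_ne_zero]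
  intro h0
  rw [mom, lintegral_eq_zero_iff (by fun_prop)] at h0
  have hna : NullSingletonClass (gaussianReal 0 1) :=
    nullSingletonClass_gaussianReal one_ne_zero
  have h1 : ∀ᵐ t ∂(gaussianReal 0 1), t = 0 := by
    filter_upwards [h0] with t ht
    by_contra hne
    have : 0 < |t| ^ p := Real.rpow_pos_of_pos (abs_pos.mpr hne) p
    simp only [Pi.zero_apply, ENNReal.ofReal_eq_zero] at ht
    linarith
  have h2 : gaussianReal 0 1 {(0 : ℝ)}ᶜ = 0 := by
    rw [ae_iff] at h1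
    exact h1
  have h3 : gaussianReal 0 1 {(0 : ℝ)} = 0 := measure_singleton 0
  have h4 : gaussianReal 0 1 Set.univ = 0 := by
    rw [← Set.union_compl_self {(0 : ℝ)}]
    exact le_antisymm ((measure_union_le _ _).trans (by rw [h2, h3, add_zero])) zero_le
  rw [measure_univ] at h4
  exact one_ne_zero h4

theorem two_rpow (a b : ℝ) (ha : 0 ≤ a) (hb : 0 ≤ b) (p : ℝ) (hp : 1 ≤ p) :
    (a + b) ^ p ≤ 2 ^ (p - 1) * (a ^ p + b ^ p) := by
  have h := Real.rpow_sum_le_const_mul_sum_rpow_of_nonneg (Finset.univ : Finset (Fin 2))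
    (f := ![a, b]) hp (by
      intro i _
      fin_cases i
      · exact ha
      · exact hb)
  simpa [Fin.sum_univ_two] using h

theorem three_rpow (a b c : ℝ) (ha : 0 ≤ a) (hb : 0 ≤ b) (hc : 0 ≤ c) (p : ℝ) (hp : 1 ≤ p) :
    (a + b + c) ^ p ≤ 3 ^ (p - 1) * (a ^ p + b ^ p + c ^ p) := by
  have h := Real.rpow_sum_le_const_mul_sum_rpow_of_nonneg (Finset.univ : Finset (Fin 3))
    (f := ![a, b, c]) hp (by
      intro i _
      fin_cases i
      · exact ha
      · exact hb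
      · exact hc)
  simpa [Fin.sum_univ_three] using h

/-- Law of a coordinate. -/
theorem lintegral_coord (k : ℕ) (i : Fin k) (r : ℝ) (hr : 0 ≤ r) :
    ∫⁻ z : EuclideanSpace ℝ (Fin k), ENNReal.ofReal (|z i| ^ r)
      ∂(stdGaussian (EuclideanSpace ℝ (Fin k))) = mom r := by
  have h := lintegral_dual_rpow (E := EuclideanSpace ℝ (Fin k))
    (innerSL ℝ (EuclideanSpace.single i (1 : ℝ))) r hr
  rw [innerSL_apply_norm] at h
  have e1 : ‖EuclideanSpace.single i (1 : ℝ)‖ = 1 := by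
    simp
  rw [e1, Real.one_rpow, ENNReal.ofReal_one, one_mul] at h
  rw [← h]
  refine lintegral_congr (fun z => ?_)
  rw [innerSL_apply_apply, EuclideanSpace.inner_single_left]
  simp

theorem lintegral_norm_sq (k : ℕ) :
    ∫⁻ z : EuclideanSpace ℝ (Fin k), ENNReal.ofReal (‖z‖ ^ (2 : ℝ))
      ∂(stdGaussian (EuclideanSpace ℝ (Fin k))) = (k : ℝ≥0∞) * mom 2 := by
  have h1 : ∀ z : EuclideanSpace ℝ (Fin k), ENNReal.ofReal (‖z‖ ^ (2 : ℝ))
      = ∑ i, ENNReal.ofReal (|z i| ^ (2 : ℝ)) := by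
    intro z
    rw [← ENNReal.ofReal_sum_of_nonneg (fun i _ => by positivity)]
    congr 1
    rw [Real.rpow_two, EuclideanSpace.real_norm_sq_eq]
    refine Finset.sum_congr rfl (fun i _ => ?_)
    rw [Real.rpow_two, sq_abs]
  simp_rw [h1]
  rw [lintegral_finsetSum _ (fun i _ => by fun_prop)]
  simp_rw [lintegral_coord k _ 2 (by norm_num)]
  simp

theorem lintegral_norm_rpow_ge (k : ℕ) (p : ℝ) (hp : 2 ≤ p) :
    ((k : ℝ≥0∞) * mom 2) ^ (p / 2) ≤ ∫⁻ z : EuclideanSpace ℝ (Fin k), ENNReal.ofReal (‖z‖ ^ p)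
      ∂(stdGaussian (EuclideanSpace ℝ (Fin k))) := by
  have hp0 : 0 < p := by linarith
  have h := eLpNorm_le_eLpNorm_of_exponent_le (μ := stdGaussian (EuclideanSpace ℝ (Fin k)))
    (f := fun z : EuclideanSpace ℝ (Fin k) => ‖z‖) (p := 2) (q := ENNReal.ofReal p) (by
      rw [show (2 : ℝ≥0∞) = ENNReal.ofReal 2 by simp]
      exact ENNReal.ofReal_le_ofReal hp) (by fun_prop)
  have hq0 : ENNReal.ofReal p ≠ 0 := by
    simp only [ne_eq, ENNReal.ofReal_eq_zero, not_le]
    exact hp0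
  rw [eLpNorm_eq_lintegral_rpow_enorm_toReal (by norm_num) (by norm_num),
    eLpNorm_eq_lintegral_rpow_enorm_toReal hq0 ENNReal.ofReal_ne_top,
    ENNReal.toReal_ofReal hp0.le] at h
  have e1 : ∀ (r : ℝ), 0 ≤ r → ∀ z : EuclideanSpace ℝ (Fin k),
      ‖‖z‖‖ₑ ^ r = ENNReal.ofReal (‖z‖ ^ r) := by
    intro r hr z
    rw [Real.enorm_eq_ofReal_abs, abs_of_nonneg (norm_nonneg _),
      ENNReal.ofReal_rpow_of_nonneg (norm_nonneg _) hr]
  simp_rw [e1 p hp0.le] at h
  have e2 : (2 : ℝ≥0∞).toReal = 2 := by simp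
  rw [e2] at h
  simp_rw [e1 2 (by norm_num)] at h
  rw [lintegral_norm_sq] at h
  have h2 := ENNReal.rpow_le_rpow h hp0.le
  rw [← ENNReal.rpow_mul, ← ENNReal.rpow_mul, one_div_mul_cancel hp0.ne', ENNReal.rpow_one] at h2
  have e3 : 1 / 2 * p = p / 2 := by ring
  rw [e3] at h2
  exact h2

theorem lintegral_sub_ge {E : Type*} [NormedAddCommGroup E] [InnerProductSpace ℝ E]
    [FiniteDimensional ℝ E] [MeasurableSpace E] [BorelSpace E] (p : ℝ) (hp : 1 ≤ p) :
    ∫⁻ z : E, ENNReal.ofReal (‖z‖ ^ p) ∂(stdGaussian E)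
      ≤ ∫⁻ w : E × E, ENNReal.ofReal (‖w.1 - w.2‖ ^ p)
        ∂((stdGaussian E).prod (stdGaussian E)) := by
  have hp0 : 0 < p := by linarith
  set μ := stdGaussian E with hμ
  set F : E → ℝ≥0∞ := fun v => ENNReal.ofReal (‖v‖ ^ p) with hF
  have hFm : Measurable F := by
    rw [hF]
    fun_prop
  have hneg : μ.map (fun y => -y) = μ := by
    have := stdGaussian_map (E := E) (LinearIsometryEquiv.neg ℝ (E := E))
    rw [LinearIsometryEquiv.coe_neg] at this
    exact this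
  have hm0 : Measurable (fun w : E × E => F w.1) := hFm.comp measurable_fst
  have hm1 : Measurable (fun w : E × E => F (w.1 - w.2)) :=
    hFm.comp (measurable_fst.sub measurable_snd)
  have hm2 : Measurable (fun w : E × E => F (w.1 + w.2)) :=
    hFm.comp (measurable_fst.add measurable_snd)
  have hJ : ∫⁻ w : E × E, F (w.1 + w.2) ∂(μ.prod μ)
      = ∫⁻ w : E × E, F (w.1 - w.2) ∂(μ.prod μ) := by
    rw [lintegral_prod _ hm1.aemeasurable, lintegral_prod _ hm2.aemeasurable]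
    refine lintegral_congr (fun x => ?_)
    have hmx : Measurable (fun y : E => F (x - y)) :=
      hFm.comp (measurable_const.sub measurable_id)
    calc ∫⁻ y, F (x + y) ∂μ = ∫⁻ y, (fun y' => F (x - y')) (-y) ∂μ := by
          refine lintegral_congr (fun y => ?_)
          simp only [sub_neg_eq_add]
      _ = ∫⁻ y', F (x - y') ∂(μ.map (fun y => -y)) := (lintegral_map hmx measurable_neg).symm
      _ = ∫⁻ y', F (x - y') ∂μ := by rw [hneg]
  have hpt : ∀ x y : E, 2 * F x ≤ F (x - y) + F (x + y) := by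
    intro x y
    have e0 : (2 : ℝ≥0∞) * F x = ENNReal.ofReal (2 * ‖x‖ ^ p) := by
      rw [ENNReal.ofReal_mul (by norm_num)]
      simp [hF]
    rw [e0, hF]
    simp only
    rw [← ENNReal.ofReal_add (by positivity) (by positivity)]
    refine ENNReal.ofReal_le_ofReal ?_
    have h1 : 2 * ‖x‖ ≤ ‖x - y‖ + ‖x + y‖ := by
      have e : (2 : ℝ) • x = (x - y) + (x + y) := by
        rw [two_smul]
        abel
      calc 2 * ‖x‖ = ‖(2 : ℝ) • x‖ := by rw [norm_smul]; simp
        _ = ‖(x - y) + (x + y)‖ := by rw [e]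
        _ ≤ _ := norm_add_le _ _
    have h2 : (2 * ‖x‖) ^ p ≤ 2 ^ (p - 1) * (‖x - y‖ ^ p + ‖x + y‖ ^ p) :=
      (Real.rpow_le_rpow (by positivity) h1 hp0.le).trans
        (two_rpow _ _ (norm_nonneg _) (norm_nonneg _) p hp)
    rw [Real.mul_rpow (by norm_num) (norm_nonneg _)] at h2
    have e2 : (2 : ℝ) ^ p = 2 ^ (p - 1) * 2 := by
      rw [Real.rpow_sub_one (by norm_num)]
      field_simp
    rw [e2, mul_assoc] at h2
    exact le_of_mul_le_mul_left h2 (by positivity)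
  have h0 : ∫⁻ w : E × E, F w.1 ∂(μ.prod μ) = ∫⁻ z, F z ∂μ := by
    rw [lintegral_prod _ hm0.aemeasurable]
    simp
  have h3 : 2 * ∫⁻ z, F z ∂μ ≤ 2 * ∫⁻ w : E × E, F (w.1 - w.2) ∂(μ.prod μ) := by
    calc 2 * ∫⁻ z, F z ∂μ
        = ∫⁻ w : E × E, 2 * F w.1 ∂(μ.prod μ) := by
          rw [lintegral_const_mul _ hm0, h0]
      _ ≤ ∫⁻ w : E × E, (F (w.1 - w.2) + F (w.1 + w.2)) ∂(μ.prod μ) :=
          lintegral_mono (fun w => hpt w.1 w.2)
      _ = _ := by
          rw [lintegral_add_left hm1, hJ, two_mul]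
  exact (ENNReal.mul_le_mul_iff_right (by norm_num) (by norm_num)).mp h3

/-- Rounding of a real number to the grid `{j / √k : |j| ≤ k}` (numerator). -/
noncomputable def rnd (k : ℕ) (t : ℝ) : ℤ := max (-(k : ℤ)) (min (k : ℤ) (round (t * √k)))

theorem rnd_mem (k : ℕ) (t : ℝ) : rnd k t ∈ Finset.Icc (-(k : ℤ)) (k : ℤ) := by
  rw [Finset.mem_Icc, rnd]
  refine ⟨le_max_left _ _, max_le (by omega) (min_le_left _ _)⟩

theorem rnd_err (k : ℕ) (hk : 1 ≤ k) (t : ℝ) :
    |(rnd k t : ℝ) / √k - t| ≤ (1 / 2 + t ^ 2) / √k := by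
  have hkR : (1 : ℝ) ≤ (k : ℝ) := by exact_mod_cast hk
  set s : ℝ := √k with hs
  have hs0 : 0 < s := Real.sqrt_pos.mpr (by linarith)
  have hss : s * s = k := Real.mul_self_sqrt (by linarith)
  have hr := abs_sub_round (t * s)
  have hr' := abs_le.mp hr
  have e : (rnd k t : ℝ) / s - t = ((rnd k t : ℝ) - t * s) / s := by
    field_simp
  rw [e, abs_div, abs_of_pos hs0]
  refine div_le_div_of_nonneg_right ?_ hs0.le
  by_cases h1 : round (t * s) ≤ (k : ℤ)
  · by_cases h2 : -(k : ℤ) ≤ round (t * s)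
    · have e1 : rnd k t = round (t * s) := by
        rw [rnd, min_eq_right h1, max_eq_right h2]
      rw [e1, abs_sub_comm]
      nlinarith [sq_nonneg t]
    · push Not at h2
      have e1 : rnd k t = -(k : ℤ) := by
        rw [rnd, min_eq_right h1, max_eq_left h2.le]
      rw [e1]
      have h3 : (round (t * s) : ℝ) ≤ -(k : ℝ) - 1 := by
        have : round (t * s) ≤ -(k : ℤ) - 1 := by omega
        exact_mod_cast this
      have h4 : t * s ≤ -(k : ℝ) := by linarith [hr'.2]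
      have h5 : t ≤ -s := by
        by_contra hcon
        push Not at hcon
        nlinarith
      push_cast
      rw [abs_of_nonneg (by linarith)]
      nlinarith
  · push Not at h1
    have e1 : rnd k t = (k : ℤ) := by
      rw [rnd, min_eq_left h1.le, max_eq_right (by omega)]
    rw [e1]
    have h3 : (k : ℝ) + 1 ≤ (round (t * s) : ℝ) := by
      have : (k : ℤ) + 1 ≤ round (t * s) := by omega
      exact_mod_cast this
    have h4 : (k : ℝ) ≤ t * s := by linarith [hr'.1]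
    have h5 : s ≤ t := by
      by_contra hcon
      push Not at hcon
      nlinarith
    push_cast
    rw [abs_of_nonpos (by linarith)]
    nlinarith

/-- Rounding of a vector to the grid. -/
noncomputable def rndv (k : ℕ) (z : EuclideanSpace ℝ (Fin k)) : EuclideanSpace ℝ (Fin k) :=
  WithLp.toLp 2 (fun i => (rnd k (z i) : ℝ) / √k)

/-- A continuous majorant of the `p`-th power of the rounding error. -/
noncomputable def Qf (k : ℕ) (p : ℝ) (z : EuclideanSpace ℝ (Fin k)) : ℝ :=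
  ∑ i, (1 / (k : ℝ)) * (2 ^ (p - 1) * ((1 / 2) ^ p + |z i| ^ (2 * p)))

theorem Qf_nonneg (k : ℕ) (p : ℝ) (z : EuclideanSpace ℝ (Fin k)) : 0 ≤ Qf k p z := by
  unfold Qf
  positivity

theorem rndv_err (k : ℕ) (hk : 1 ≤ k) (p : ℝ) (hp : 2 ≤ p) (z : EuclideanSpace ℝ (Fin k)) :
    ‖rndv k z - z‖ ^ p ≤ Qf k p z := by
  have hkR : (1 : ℝ) ≤ (k : ℝ) := by exact_mod_cast hk
  have hk0 : (0 : ℝ) < (k : ℝ) := by linarith
  have hp0 : 0 < p := by linarith
  have e1 : ‖rndv k z - z‖ ^ p = (‖rndv k z - z‖ ^ 2) ^ (p / 2) := by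
    rw [← Real.rpow_natCast, ← Real.rpow_mul (norm_nonneg _)]
    congr 1
    push_cast
    ring
  rw [e1, EuclideanSpace.real_norm_sq_eq]
  have h1 : ∀ i, ((rndv k z - z) i) ^ 2 ≤ (1 / (k : ℝ)) * ((1 / 2 + z i ^ 2) ^ 2) := by
    intro i
    have h2 := rnd_err k hk (z i)
    have e2 : (rndv k z - z) i = (rnd k (z i) : ℝ) / √k - z i := rfl
    rw [e2, ← sq_abs]
    have h3 : |(rnd k (z i) : ℝ) / √k - z i| ^ 2 ≤ ((1 / 2 + z i ^ 2) / √k) ^ 2 :=
      pow_le_pow_left₀ (abs_nonneg _) h2 2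
    rw [div_pow, Real.sq_sqrt hk0.le] at h3
    calc _ ≤ (1 / 2 + z i ^ 2) ^ 2 / (k : ℝ) := h3
      _ = _ := by ring
  calc (∑ i, ((rndv k z - z) i) ^ 2) ^ (p / 2)
      ≤ (∑ i, (1 / (k : ℝ)) * ((1 / 2 + z i ^ 2) ^ 2)) ^ (p / 2) := by
        refine Real.rpow_le_rpow (Finset.sum_nonneg (fun i _ => sq_nonneg _))
          (Finset.sum_le_sum (fun i _ => h1 i)) (by linarith)
    _ ≤ ∑ i, (1 / (k : ℝ)) * ((1 / 2 + z i ^ 2) ^ 2) ^ (p / 2) := by
        refine Real.rpow_arith_mean_le_arith_mean_rpow Finset.univ (fun _ => 1 / (k : ℝ))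
          (fun i => (1 / 2 + z i ^ 2) ^ 2) (fun i _ => by positivity) ?_
          (fun i _ => by positivity) (by linarith)
        rw [Finset.sum_const, Finset.card_univ, Fintype.card_fin, nsmul_eq_mul]
        field_simp
    _ ≤ Qf k p z := by
        unfold Qf
        refine Finset.sum_le_sum (fun i _ => ?_)
        refine mul_le_mul_of_nonneg_left ?_ (by positivity)
        have e3 : ((1 / 2 + z i ^ 2) ^ 2) ^ (p / 2) = (1 / 2 + z i ^ 2) ^ p := by
          rw [← Real.rpow_natCast, ← Real.rpow_mul (by positivity)]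
          congr 1
          push_cast
          ring
        have e4 : |z i| ^ (2 * p) = (z i ^ 2) ^ p := by
          rw [Real.rpow_mul (abs_nonneg _), Real.rpow_two, sq_abs]
        rw [e3, e4]
        exact two_rpow _ _ (by norm_num) (sq_nonneg _) p (by linarith)

end Vale.Agent.Lib.P249
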