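import Mathlib
import Vale.Agent.Lib.P249.GaussNet

/-!
# P249 : maps of a Euclidean grid into `ℓ_p^d` need `d ≳ k^{p/2}`
-/

namespace Vale.Agent.Lib.P249

open MeasureTheory ProbabilityTheory
open scoped ENNReal NNReal

/-- The constant bounding the mean `p`-th power of the rounding error. -/
noncomputable def C1e (p : ℝ) : ℝ≥0∞ :=
  ENNReal.ofReal (2 ^ (p - 1)) * (ENNReal.ofReal ((1 / 2) ^ p) + mom (2 * p))

theorem lintegral_Qf (k : ℕ) (hk : 1 ≤ k) (p : ℝ) (hp : 0 ≤ p) :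
    ∫⁻ z : EuclideanSpace ℝ (Fin k), ENNReal.ofReal (Qf k p z)
      ∂(stdGaussian (EuclideanSpace ℝ (Fin k))) = C1e p := by
  have hkR : (1 : ℝ) ≤ (k : ℝ) := by exact_mod_cast hk
  have hk0 : (0 : ℝ) < (k : ℝ) := by linarith
  have h1 : ∀ z : EuclideanSpace ℝ (Fin k), ENNReal.ofReal (Qf k p z)
      = ∑ i, ENNReal.ofReal (1 / (k : ℝ)) * (ENNReal.ofReal (2 ^ (p - 1)) *
          (ENNReal.ofReal ((1 / 2) ^ p) + ENNReal.ofReal (|z i| ^ (2 * p)))) := by
    intro z
    unfold Qf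
    rw [ENNReal.ofReal_sum_of_nonneg (fun i _ => by positivity)]
    refine Finset.sum_congr rfl (fun i _ => ?_)
    rw [ENNReal.ofReal_mul (by positivity), ENNReal.ofReal_mul (by positivity),
      ENNReal.ofReal_add (by positivity) (by positivity)]
  simp_rw [h1]
  rw [lintegral_finsetSum _ (fun i _ => by fun_prop)]
  have h2 : ∀ i : Fin k, ∫⁻ z : EuclideanSpace ℝ (Fin k),
      ENNReal.ofReal (1 / (k : ℝ)) * (ENNReal.ofReal (2 ^ (p - 1)) *
          (ENNReal.ofReal ((1 / 2) ^ p) + ENNReal.ofReal (|z i| ^ (2 * p))))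
      ∂(stdGaussian (EuclideanSpace ℝ (Fin k))) = ENNReal.ofReal (1 / (k : ℝ)) * C1e p := by
    intro i
    rw [lintegral_const_mul _ (by fun_prop), lintegral_const_mul _ (by fun_prop),
      lintegral_add_left (by fun_prop), lintegral_const, measure_univ, mul_one,
      lintegral_coord k i (2 * p) (by positivity), C1e]
  simp_rw [h2]
  rw [Finset.sum_const, Finset.card_univ, Fintype.card_fin, nsmul_eq_mul, ← mul_assoc]
  have e : (k : ℝ≥0∞) * ENNReal.ofReal (1 / (k : ℝ)) = 1 := by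
    rw [← ENNReal.ofReal_natCast, ← ENNReal.ofReal_mul hk0.le]
    have : (k : ℝ) * (1 / (k : ℝ)) = 1 := by field_simp
    rw [this, ENNReal.ofReal_one]
  rw [e, one_mul]

/-- The grid `{ (j_i / √k)_i : |j_i| ≤ k }`. -/
noncomputable def grid (k : ℕ) : Finset (EuclideanSpace ℝ (Fin k)) :=
  (Fintype.piFinset (fun _ : Fin k => Finset.Icc (-(k : ℤ)) (k : ℤ))).image
    (fun a => WithLp.toLp 2 (fun i => (a i : ℝ) / √k))

theorem rndv_mem (k : ℕ) (z : EuclideanSpace ℝ (Fin k)) : rndv k z ∈ grid k := by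
  unfold grid
  rw [Finset.mem_image]
  refine ⟨fun i => rnd k (z i), ?_, rfl⟩
  rw [Fintype.mem_piFinset]
  exact fun i => rnd_mem k (z i)

theorem card_grid_le (k : ℕ) : (grid k).card ≤ (2 * k + 1) ^ k := by
  unfold grid
  refine Finset.card_image_le.trans ?_
  rw [Fintype.card_piFinset]
  simp only [Int.card_Icc, Finset.prod_const, Finset.card_univ, Fintype.card_fin]
  refine le_of_eq ?_
  congr 1
  omega

theorem pointwise_bound (k : ℕ) (hk : 1 ≤ k) (p : ℝ) (hp : 2 ≤ p) (d : ℕ)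
    (F : EuclideanSpace ℝ (Fin k) → Fin d → ℝ) (D : ℝ) (hD : 0 ≤ D)
    (h : Fin d → EuclideanSpace ℝ (Fin k) → ℝ)
    (hLip : ∀ t, LipschitzWith D.toNNReal (h t))
    (heq : ∀ t, ∀ u ∈ grid k, F u t = h t u)
    (hlow : ∀ u ∈ grid k, ∀ v ∈ grid k, ‖u - v‖ ^ p ≤ ∑ t, |F u t - F v t| ^ p)
    (w1 w2 : EuclideanSpace ℝ (Fin k)) :
    ‖w1 - w2‖ ^ p ≤ 3 ^ (p - 1) * (3 ^ (p - 1) * ∑ t, |h t w2 - h t w1| ^ p
      + (3 ^ (p - 1) * d * D ^ p + 1) * (Qf k p w1 + Qf k p w2)) := by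
  have hp0 : 0 < p := by linarith
  have hp1 : 1 ≤ p := by linarith
  set a := rndv k w1 with ha
  set b := rndv k w2 with hb
  have hag : a ∈ grid k := rndv_mem k w1
  have hbg : b ∈ grid k := rndv_mem k w2
  have hQ1 : ‖a - w1‖ ^ p ≤ Qf k p w1 := rndv_err k hk p hp w1
  have hQ2 : ‖b - w2‖ ^ p ≤ Qf k p w2 := rndv_err k hk p hp w2
  set Q1 := Qf k p w1
  set Q2 := Qf k p w2
  set c3 : ℝ := 3 ^ (p - 1) with hc3
  have hc3pos : 0 < c3 := by positivity
  have hDp : 0 ≤ D ^ p := Real.rpow_nonneg hD p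
  have htri : ‖w1 - w2‖ ≤ ‖a - b‖ + ‖a - w1‖ + ‖b - w2‖ := by
    have e : w1 - w2 = (a - b) - (a - w1) + (b - w2) := by abel
    calc ‖w1 - w2‖ = ‖(a - b) - (a - w1) + (b - w2)‖ := by rw [← e]
      _ ≤ ‖(a - b) - (a - w1)‖ + ‖b - w2‖ := norm_add_le _ _
      _ ≤ ‖a - b‖ + ‖a - w1‖ + ‖b - w2‖ := by
          have := norm_sub_le (a - b) (a - w1)
          linarith
  have h1 : ‖w1 - w2‖ ^ p ≤ c3 * (‖a - b‖ ^ p + ‖a - w1‖ ^ p + ‖b - w2‖ ^ p) :=
    (Real.rpow_le_rpow (norm_nonneg _) htri hp0.le).trans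
      (three_rpow _ _ _ (norm_nonneg _) (norm_nonneg _) (norm_nonneg _) p hp1)
  have h2 : ‖a - b‖ ^ p ≤ ∑ t, |h t a - h t b| ^ p := by
    have := hlow a hag b hbg
    simp_rw [heq _ a hag, heq _ b hbg] at this
    exact this
  have h3 : ∀ t, |h t a - h t b| ^ p ≤ c3 * (|h t w2 - h t w1| ^ p + D ^ p * (Q1 + Q2)) := by
    intro t
    have l1 : |h t a - h t w1| ≤ D * ‖a - w1‖ := by
      have := (hLip t).dist_le_mul a w1
      rwa [Real.dist_eq, dist_eq_norm, Real.coe_toNNReal D hD] at this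
    have l2 : |h t b - h t w2| ≤ D * ‖b - w2‖ := by
      have := (hLip t).dist_le_mul b w2
      rwa [Real.dist_eq, dist_eq_norm, Real.coe_toNNReal D hD] at this
    have l3 : |h t a - h t b| ≤ |h t w2 - h t w1| + D * ‖a - w1‖ + D * ‖b - w2‖ := by
      have e : h t a - h t b = -(h t w2 - h t w1) + (h t a - h t w1) - (h t b - h t w2) := by ring
      rw [e]
      calc |-(h t w2 - h t w1) + (h t a - h t w1) - (h t b - h t w2)|
          ≤ |-(h t w2 - h t w1) + (h t a - h t w1)| + |h t b - h t w2| := abs_sub _ _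
        _ ≤ |-(h t w2 - h t w1)| + |h t a - h t w1| + |h t b - h t w2| := by
            have := abs_add_le (-(h t w2 - h t w1)) (h t a - h t w1)
            linarith
        _ ≤ _ := by
            rw [abs_neg]
            linarith
    have l4 := (Real.rpow_le_rpow (abs_nonneg _) l3 hp0.le).trans
      (three_rpow _ _ _ (abs_nonneg _) (mul_nonneg hD (norm_nonneg _))
        (mul_nonneg hD (norm_nonneg _)) p hp1)
    rw [Real.mul_rpow hD (norm_nonneg _), Real.mul_rpow hD (norm_nonneg _)] at l4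
    refine l4.trans ?_
    refine mul_le_mul_of_nonneg_left ?_ hc3pos.le
    have m1 : D ^ p * ‖a - w1‖ ^ p ≤ D ^ p * Q1 := mul_le_mul_of_nonneg_left hQ1 hDp
    have m2 : D ^ p * ‖b - w2‖ ^ p ≤ D ^ p * Q2 := mul_le_mul_of_nonneg_left hQ2 hDp
    linarith
  have h4 : ∑ t, |h t a - h t b| ^ p
      ≤ c3 * (∑ t, |h t w2 - h t w1| ^ p) + c3 * d * D ^ p * (Q1 + Q2) := by
    calc ∑ t, |h t a - h t b| ^ p
        ≤ ∑ t, c3 * (|h t w2 - h t w1| ^ p + D ^ p * (Q1 + Q2)) :=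
          Finset.sum_le_sum (fun t _ => h3 t)
      _ = _ := by
          rw [← Finset.mul_sum, Finset.sum_add_distrib, Finset.sum_const, Finset.card_univ,
            Fintype.card_fin, nsmul_eq_mul]
          ring
  calc ‖w1 - w2‖ ^ p ≤ c3 * (‖a - b‖ ^ p + ‖a - w1‖ ^ p + ‖b - w2‖ ^ p) := h1
    _ ≤ c3 * ((c3 * (∑ t, |h t w2 - h t w1| ^ p) + c3 * d * D ^ p * (Q1 + Q2)) + Q1 + Q2) := by
        refine mul_le_mul_of_nonneg_left ?_ hc3pos.le
        linarith
    _ = _ := by ring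

theorem measurable_Qf (k : ℕ) (p : ℝ) : Measurable (Qf k p) := by
  unfold Qf
  fun_prop

/-- The main estimate: a map of the grid into `ℓ_p^d` which does not contract distances and expands
them by at most `D` forces `d D^p ≳ k^{p/2}`. -/
theorem core_lower (k : ℕ) (hk : 1 ≤ k) (p : ℝ) (hp : 2 ≤ p) (d : ℕ)
    (F : EuclideanSpace ℝ (Fin k) → Fin d → ℝ) (D : ℝ) (hD : 0 ≤ D)
    (hlow : ∀ u ∈ grid k, ∀ v ∈ grid k, ‖u - v‖ ^ p ≤ ∑ t, |F u t - F v t| ^ p)
    (hup : ∀ u ∈ grid k, ∀ v ∈ grid k, ∑ t, |F u t - F v t| ^ p ≤ (D * ‖u - v‖) ^ p) :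
    ((k : ℝ≥0∞) * mom 2) ^ (p / 2) ≤ ENNReal.ofReal (3 ^ (p - 1)) *
      (ENNReal.ofReal (3 ^ (p - 1)) *
          ((d : ℝ≥0∞) * (ENNReal.ofReal ((Real.pi / 2) ^ p * D ^ p) * mom p))
        + ENNReal.ofReal (3 ^ (p - 1) * d * D ^ p + 1) * (C1e p + C1e p)) := by
  have hp0 : 0 < p := by linarith
  have hp1 : 1 ≤ p := by linarith
  have hDp : 0 ≤ D ^ p := Real.rpow_nonneg hD p
  -- Lipschitz extension of the coordinates
  have hlipOn : ∀ t : Fin d, LipschitzOnWith D.toNNReal (fun u => F u t)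
      (grid k : Set (EuclideanSpace ℝ (Fin k))) := by
    intro t
    refine LipschitzOnWith.of_dist_le_mul (fun u hu v hv => ?_)
    rw [Real.dist_eq, dist_eq_norm, Real.coe_toNNReal D hD]
    have h1 : |F u t - F v t| ^ p ≤ (D * ‖u - v‖) ^ p :=
      (Finset.single_le_sum (f := fun t => |F u t - F v t| ^ p)
        (fun t _ => Real.rpow_nonneg (abs_nonneg _) p) (Finset.mem_univ t)).trans (hup u hu v hv)
    exact (Real.rpow_le_rpow_iff (abs_nonneg _) (mul_nonneg hD (norm_nonneg _)) hp0).mp h1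
  choose h hLip heq using fun t => (hlipOn t).extend_real
  have heq' : ∀ t, ∀ u ∈ grid k, F u t = h t u := fun t u hu => heq t hu
  set μ := stdGaussian (EuclideanSpace ℝ (Fin k)) with hμ
  set c3 : ℝ := 3 ^ (p - 1) with hc3
  have hc3pos : 0 < c3 := by positivity
  have hHm : ∀ t, Measurable (fun w : EuclideanSpace ℝ (Fin k) × EuclideanSpace ℝ (Fin k) =>
      ENNReal.ofReal (|h t w.2 - h t w.1| ^ p)) := by
    intro t
    have m1 : Measurable (h t) := (hLip t).continuous.measurable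
    exact ((((m1.comp measurable_snd).sub (m1.comp measurable_fst)).abs).pow_const p).ennreal_ofReal
  have hQm : Measurable (fun z : EuclideanSpace ℝ (Fin k) => ENNReal.ofReal (Qf k p z)) :=
    (measurable_Qf k p).ennreal_ofReal
  have hQ1m : Measurable (fun w : EuclideanSpace ℝ (Fin k) × EuclideanSpace ℝ (Fin k) =>
      ENNReal.ofReal (Qf k p w.1)) := hQm.comp measurable_fst
  have hQ2m : Measurable (fun w : EuclideanSpace ℝ (Fin k) × EuclideanSpace ℝ (Fin k) =>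
      ENNReal.ofReal (Qf k p w.2)) := hQm.comp measurable_snd
  have hQ1 : ∫⁻ w : EuclideanSpace ℝ (Fin k) × EuclideanSpace ℝ (Fin k),
      ENNReal.ofReal (Qf k p w.1) ∂(μ.prod μ) = C1e p := by
    rw [lintegral_prod _ hQ1m.aemeasurable]
    simp only [lintegral_const, measure_univ, mul_one]
    exact lintegral_Qf k hk p hp0.le
  have hQ2 : ∫⁻ w : EuclideanSpace ℝ (Fin k) × EuclideanSpace ℝ (Fin k),
      ENNReal.ofReal (Qf k p w.2) ∂(μ.prod μ) = C1e p := by
    rw [lintegral_prod _ hQ2m.aemeasurable]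
    simp only
    rw [lintegral_Qf k hk p hp0.le, lintegral_const, measure_univ, mul_one]
  have hpt : ∀ w : EuclideanSpace ℝ (Fin k) × EuclideanSpace ℝ (Fin k),
      ENNReal.ofReal (‖w.1 - w.2‖ ^ p) ≤ ENNReal.ofReal c3 *
        (ENNReal.ofReal c3 * ∑ t, ENNReal.ofReal (|h t w.2 - h t w.1| ^ p)
          + ENNReal.ofReal (c3 * d * D ^ p + 1) *
            (ENNReal.ofReal (Qf k p w.1) + ENNReal.ofReal (Qf k p w.2))) := by
    intro w
    have hb := pointwise_bound k hk p hp d F D hD h hLip heq' hlow w.1 w.2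
    have hq1 := Qf_nonneg k p w.1
    have hq2 := Qf_nonneg k p w.2
    rw [← ENNReal.ofReal_sum_of_nonneg (fun t _ => Real.rpow_nonneg (abs_nonneg _) p),
      ← ENNReal.ofReal_add hq1 hq2, ← ENNReal.ofReal_mul hc3pos.le,
      ← ENNReal.ofReal_mul (by positivity),
      ← ENNReal.ofReal_add
        (mul_nonneg hc3pos.le (Finset.sum_nonneg (fun t _ => Real.rpow_nonneg (abs_nonneg _) p)))
        (mul_nonneg (by positivity) (add_nonneg hq1 hq2)),
      ← ENNReal.ofReal_mul hc3pos.le]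
    exact ENNReal.ofReal_le_ofReal hb
  have hconc : ∀ t, ∫⁻ w : EuclideanSpace ℝ (Fin k) × EuclideanSpace ℝ (Fin k),
      ENNReal.ofReal (|h t w.2 - h t w.1| ^ p) ∂(μ.prod μ)
      ≤ ENNReal.ofReal ((Real.pi / 2) ^ p * D ^ p) * mom p := by
    intro t
    have := gauss_conc k (h t) D.toNNReal (hLip t) p hp1
    rwa [Real.coe_toNNReal D hD] at this
  calc ((k : ℝ≥0∞) * mom 2) ^ (p / 2)
      ≤ ∫⁻ z, ENNReal.ofReal (‖z‖ ^ p) ∂μ := lintegral_norm_rpow_ge k p hp
    _ ≤ ∫⁻ w : EuclideanSpace ℝ (Fin k) × EuclideanSpace ℝ (Fin k),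
          ENNReal.ofReal (‖w.1 - w.2‖ ^ p) ∂(μ.prod μ) := lintegral_sub_ge p hp1
    _ ≤ ∫⁻ w : EuclideanSpace ℝ (Fin k) × EuclideanSpace ℝ (Fin k), ENNReal.ofReal c3 *
        (ENNReal.ofReal c3 * ∑ t, ENNReal.ofReal (|h t w.2 - h t w.1| ^ p)
          + ENNReal.ofReal (c3 * d * D ^ p + 1) *
            (ENNReal.ofReal (Qf k p w.1) + ENNReal.ofReal (Qf k p w.2))) ∂(μ.prod μ) :=
        lintegral_mono hpt
    _ = ENNReal.ofReal c3 *
        (ENNReal.ofReal c3 * ∑ t, ∫⁻ w : EuclideanSpace ℝ (Fin k) × EuclideanSpace ℝ (Fin k),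
            ENNReal.ofReal (|h t w.2 - h t w.1| ^ p) ∂(μ.prod μ)
          + ENNReal.ofReal (c3 * d * D ^ p + 1) * (C1e p + C1e p)) := by
        have mS : Measurable (fun w : EuclideanSpace ℝ (Fin k) × EuclideanSpace ℝ (Fin k) =>
            ∑ t, ENNReal.ofReal (|h t w.2 - h t w.1| ^ p)) :=
          Finset.measurable_fun_sum _ (fun t _ => hHm t)
        have mA : Measurable (fun w : EuclideanSpace ℝ (Fin k) × EuclideanSpace ℝ (Fin k) =>
            ENNReal.ofReal c3 * ∑ t, ENNReal.ofReal (|h t w.2 - h t w.1| ^ p)) :=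
          mS.const_mul _
        have mQ : Measurable (fun w : EuclideanSpace ℝ (Fin k) × EuclideanSpace ℝ (Fin k) =>
            ENNReal.ofReal (Qf k p w.1) + ENNReal.ofReal (Qf k p w.2)) := hQ1m.add hQ2m
        have mB : Measurable (fun w : EuclideanSpace ℝ (Fin k) × EuclideanSpace ℝ (Fin k) =>
            ENNReal.ofReal (c3 * d * D ^ p + 1) *
              (ENNReal.ofReal (Qf k p w.1) + ENNReal.ofReal (Qf k p w.2))) := mQ.const_mul _
        have mAB : Measurable (fun w : EuclideanSpace ℝ (Fin k) × EuclideanSpace ℝ (Fin k) =>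
            ENNReal.ofReal c3 * ∑ t, ENNReal.ofReal (|h t w.2 - h t w.1| ^ p) +
            ENNReal.ofReal (c3 * d * D ^ p + 1) *
              (ENNReal.ofReal (Qf k p w.1) + ENNReal.ofReal (Qf k p w.2))) := mA.add mB
        rw [lintegral_const_mul _ mAB, lintegral_add_left mA, lintegral_const_mul _ mS,
          lintegral_const_mul _ mQ, lintegral_add_left hQ1m, hQ1, hQ2,
          lintegral_finsetSum _ (fun t _ => hHm t)]
    _ ≤ ENNReal.ofReal c3 *
        (ENNReal.ofReal c3 * ∑ _t : Fin d, (ENNReal.ofReal ((Real.pi / 2) ^ p * D ^ p) * mom p)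
          + ENNReal.ofReal (c3 * d * D ^ p + 1) * (C1e p + C1e p)) := by
        gcongr with t _
        exact hconc t
    _ = _ := by
        rw [Finset.sum_const, Finset.card_univ, Fintype.card_fin, nsmul_eq_mul]

end Vale.Agent.Lib.P249
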