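import Mathlib
import Vale.Agent.Lib.P249.GaussLower

/-!
# P249 : real form of the grid estimate, and the Gaussian copy of `ℓ_2^k` inside `L_p`
-/

namespace Vale.Agent.Lib.P249

open MeasureTheory ProbabilityTheory
open scoped ENNReal NNReal

/-- Real valued Gaussian moments. -/
noncomputable def Mr (r : ℝ) : ℝ := (mom r).toReal

theorem Mr_pos (r : ℝ) (hr : 0 < r) : 0 < Mr r :=
  ENNReal.toReal_pos (mom_pos r).ne' (mom_ne_top r hr)

theorem mom_eq (r : ℝ) (hr : 0 < r) : mom r = ENNReal.ofReal (Mr r) :=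
  (ENNReal.ofReal_toReal (mom_ne_top r hr)).symm

/-- Real form of `C1e`. -/
noncomputable def C1 (p : ℝ) : ℝ := 2 ^ (p - 1) * ((1 / 2) ^ p + Mr (2 * p))

theorem C1_pos (p : ℝ) (hp : 0 < p) : 0 < C1 p := by
  have := Mr_pos (2 * p) (by linarith)
  unfold C1
  positivity

theorem C1e_eq (p : ℝ) (hp : 0 < p) : C1e p = ENNReal.ofReal (C1 p) := by
  have := Mr_pos (2 * p) (by linarith)
  rw [C1e, C1, mom_eq (2 * p) (by linarith), ENNReal.ofReal_mul (by positivity),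
    ENNReal.ofReal_add (by positivity) this.le]

theorem core_lower_real (k : ℕ) (hk : 1 ≤ k) (p : ℝ) (hp : 2 ≤ p) (d : ℕ)
    (F : EuclideanSpace ℝ (Fin k) → Fin d → ℝ) (D : ℝ) (hD : 0 ≤ D)
    (hlow : ∀ u ∈ grid k, ∀ v ∈ grid k, ‖u - v‖ ^ p ≤ ∑ t, |F u t - F v t| ^ p)
    (hup : ∀ u ∈ grid k, ∀ v ∈ grid k, ∑ t, |F u t - F v t| ^ p ≤ (D * ‖u - v‖) ^ p) :
    ((k : ℝ) * Mr 2) ^ (p / 2) ≤ 3 ^ (p - 1) *
      (3 ^ (p - 1) * ((d : ℝ) * ((Real.pi / 2) ^ p * D ^ p * Mr p))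
        + (3 ^ (p - 1) * d * D ^ p + 1) * (C1 p + C1 p)) := by
  have hp0 : 0 < p := by linarith
  have h := core_lower k hk p hp d F D hD hlow hup
  have hM2 := Mr_pos 2 (by norm_num)
  have hMp := Mr_pos p hp0
  have hC1 := C1_pos p hp0
  have hDp : 0 ≤ D ^ p := Real.rpow_nonneg hD p
  rw [mom_eq 2 (by norm_num), mom_eq p hp0, C1e_eq p hp0, ← ENNReal.ofReal_natCast (n := k),
    ← ENNReal.ofReal_natCast (n := d), ← ENNReal.ofReal_mul (by positivity),
    ENNReal.ofReal_rpow_of_nonneg (by positivity) (by positivity),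
    ← ENNReal.ofReal_mul (by positivity), ← ENNReal.ofReal_mul (by positivity),
    ← ENNReal.ofReal_mul (by positivity), ← ENNReal.ofReal_add hC1.le hC1.le,
    ← ENNReal.ofReal_mul (by positivity), ← ENNReal.ofReal_add (by positivity) (by positivity),
    ← ENNReal.ofReal_mul (by positivity)] at h
  exact (ENNReal.ofReal_le_ofReal_iff (by positivity)).mp h

/-- The linear form `⟨u, ·⟩` as an element of `L_p` of the Gaussian measure. -/
noncomputable def gl (k : ℕ) (p : ℝ) (u : EuclideanSpace ℝ (Fin k)) :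
    Lp ℝ (ENNReal.ofReal p) (stdGaussian (EuclideanSpace ℝ (Fin k))) :=
  (IsGaussian.memLp_dual (stdGaussian (EuclideanSpace ℝ (Fin k))) (innerSL ℝ u)
    (ENNReal.ofReal p) ENNReal.ofReal_ne_top).toLp _

theorem gl_sub (k : ℕ) (p : ℝ) (u v : EuclideanSpace ℝ (Fin k)) :
    gl k p u - gl k p v = gl k p (u - v) := by
  unfold gl
  rw [← MemLp.toLp_sub]
  refine MemLp.toLp_congr _ _ (Filter.Eventually.of_forall (fun z => ?_))
  simp

theorem norm_gl (k : ℕ) (p : ℝ) (hp : 0 < p) (u : EuclideanSpace ℝ (Fin k)) :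
    ‖gl k p u‖ = ‖u‖ * Mr p ^ (1 / p) := by
  have hq0 : ENNReal.ofReal p ≠ 0 := by
    simp only [ne_eq, ENNReal.ofReal_eq_zero, not_le]
    exact hp
  have hM := Mr_pos p hp
  unfold gl
  rw [Lp.norm_toLp, eLpNorm_eq_lintegral_rpow_enorm_toReal hq0 ENNReal.ofReal_ne_top,
    ENNReal.toReal_ofReal hp.le]
  have e1 : ∀ z : EuclideanSpace ℝ (Fin k),
      ‖(innerSL ℝ u) z‖ₑ ^ p = ENNReal.ofReal (|(innerSL ℝ u) z| ^ p) := by
    intro z
    rw [Real.enorm_eq_ofReal_abs, ENNReal.ofReal_rpow_of_nonneg (abs_nonneg _) hp.le]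
  simp_rw [e1]
  rw [lintegral_dual_rpow _ p hp.le, innerSL_apply_norm, mom_eq p hp,
    ← ENNReal.ofReal_mul (by positivity),
    ENNReal.ofReal_rpow_of_nonneg (by positivity) (by positivity),
    ENNReal.toReal_ofReal (by positivity), Real.mul_rpow (by positivity) hM.le,
    ← Real.rpow_mul (norm_nonneg _), mul_one_div_cancel hp.ne', Real.rpow_one]

theorem norm_gl_sub (k : ℕ) (p : ℝ) (hp : 0 < p) (u v : EuclideanSpace ℝ (Fin k)) :
    ‖gl k p u - gl k p v‖ = ‖u - v‖ * Mr p ^ (1 / p) := by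
  rw [gl_sub, norm_gl k p hp]

/-- `p`-th power of the norm of `ℓ_p^d`. -/
theorem piLp_norm_rpow (p : ℝ) (hp : 0 < p) (d : ℕ)
    (y : PiLp (ENNReal.ofReal p) (fun _ : Fin d => ℝ)) : ‖y‖ ^ p = ∑ t, |y t| ^ p := by
  have hq : (ENNReal.ofReal p).toReal = p := ENNReal.toReal_ofReal hp.le
  have hq0 : 0 < (ENNReal.ofReal p).toReal := by rw [hq]; exact hp
  have h0 : 0 ≤ ∑ t, |y t| ^ p := Finset.sum_nonneg (fun t _ => Real.rpow_nonneg (abs_nonneg _) p)
  have h1 : ‖y‖ = (∑ t, |y t| ^ p) ^ (1 / p) := by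
    rw [PiLp.norm_eq_sum hq0, hq]
    simp only [Real.norm_eq_abs]
  rw [h1, ← Real.rpow_mul h0, one_div_mul_cancel hp.ne', Real.rpow_one]

theorem infinite_euclid (k : ℕ) (hk : 1 ≤ k) : Infinite (EuclideanSpace ℝ (Fin k)) := by
  refine Infinite.of_injective (fun t : ℝ => EuclideanSpace.single (⟨0, hk⟩ : Fin k) t) ?_
  intro a b hab
  have := congrArg (fun z : EuclideanSpace ℝ (Fin k) => z ⟨0, hk⟩) hab
  simpa using this

/-- The lower bound in terms of the dimension `k` of the grid. -/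
theorem lower_k (p : ℝ) (hp : 2 ≤ p) (k : ℕ) (hk : 1 ≤ k) (n : ℕ) (hn : (2 * k + 1) ^ k ≤ n) :
    ∃ x : Fin n → Lp ℝ (ENNReal.ofReal p) (stdGaussian (EuclideanSpace ℝ (Fin k))),
      Function.Injective x ∧
      ∀ (D : ℝ), 0 ≤ D → ∀ (d : ℕ) (f : Fin n → PiLp (ENNReal.ofReal p) (fun _ : Fin d => ℝ))
        (s : ℝ), 0 < s →
        (∀ i j, s * ‖x i - x j‖ ≤ ‖f i - f j‖ ∧ ‖f i - f j‖ ≤ D * s * ‖x i - x j‖) →
        ((k : ℝ) * Mr 2) ^ (p / 2) ≤ 3 ^ (p - 1) *
          (3 ^ (p - 1) * ((d : ℝ) * ((Real.pi / 2) ^ p * D ^ p * Mr p))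
            + (3 ^ (p - 1) * d * D ^ p + 1) * (C1 p + C1 p)) := by
  classical
  have hp0 : 0 < p := by linarith
  have hq1 : 1 ≤ ENNReal.ofReal p := by
    rw [← ENNReal.ofReal_one]
    exact ENNReal.ofReal_le_ofReal (by linarith)
  have hfact : Fact (1 ≤ ENNReal.ofReal p) := ⟨hq1⟩
  have hinf := infinite_euclid k hk
  obtain ⟨T, hGT, hTcard⟩ := Infinite.exists_superset_card_eq (grid k) n ((card_grid_le k).trans hn)
  set e : T ≃ Fin n := T.equivFinOfCardEq hTcard with he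
  have hM := Mr_pos p hp0
  set c : ℝ := Mr p ^ (1 / p) with hc
  have hcpos : 0 < c := Real.rpow_pos_of_pos hM _
  refine ⟨fun i => gl k p (e.symm i).1, ?_, ?_⟩
  · intro i j hij
    have h1 : ‖gl k p (e.symm i).1 - gl k p (e.symm j).1‖ = 0 := by
      simp only at hij
      rw [hij, sub_self, norm_zero]
    rw [norm_gl_sub k p hp0] at h1
    have h2 : ‖(e.symm i).1 - (e.symm j).1‖ = 0 := by
      rcases mul_eq_zero.mp h1 with h | h
      · exact h
      · exact absurd h hcpos.ne'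
    have h3 : (e.symm i).1 = (e.symm j).1 := sub_eq_zero.mp (norm_eq_zero.mp h2)
    exact e.symm.injective (Subtype.ext h3)
  · intro D hD d f s hs hf
    set σ : ℝ := s * c with hσ
    have hσpos : 0 < σ := mul_pos hs hcpos
    set F : EuclideanSpace ℝ (Fin k) → Fin d → ℝ :=
      fun u => if h : u ∈ T then fun t => (f (e ⟨u, h⟩)) t / σ else 0 with hF
    have key : ∀ u ∈ grid k, ∀ v ∈ grid k, ∃ i j : Fin n,
        ‖gl k p (e.symm i).1 - gl k p (e.symm j).1‖ = ‖u - v‖ * c ∧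
        ∑ t, |F u t - F v t| ^ p = ‖f i - f j‖ ^ p / σ ^ p := by
      intro u hu v hv
      have hu' : u ∈ T := hGT hu
      have hv' : v ∈ T := hGT hv
      refine ⟨e ⟨u, hu'⟩, e ⟨v, hv'⟩, ?_, ?_⟩
      · rw [Equiv.symm_apply_apply, Equiv.symm_apply_apply, norm_gl_sub k p hp0]
      · rw [piLp_norm_rpow p hp0, Finset.sum_div]
        refine Finset.sum_congr rfl (fun t _ => ?_)
        have e1 : F u t - F v t = ((f (e ⟨u, hu'⟩) - f (e ⟨v, hv'⟩)) t) / σ := by
          simp only [hF, hu', hv', dif_pos, PiLp.sub_apply]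
          ring
        rw [e1, abs_div, abs_of_pos hσpos, Real.div_rpow (abs_nonneg _) hσpos.le]
    refine core_lower_real k hk p hp d F D hD ?_ ?_
    · intro u hu v hv
      obtain ⟨i, j, h1, h2⟩ := key u hu v hv
      rw [h2, le_div_iff₀ (by positivity), ← Real.mul_rpow (norm_nonneg _) hσpos.le]
      refine Real.rpow_le_rpow (by positivity) ?_ hp0.le
      have := (hf i j).1
      rw [h1] at this
      calc ‖u - v‖ * σ = s * (‖u - v‖ * c) := by rw [hσ]; ring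
        _ ≤ _ := this
    · intro u hu v hv
      obtain ⟨i, j, h1, h2⟩ := key u hu v hv
      rw [h2, div_le_iff₀ (by positivity), ← Real.mul_rpow (by positivity) hσpos.le]
      refine Real.rpow_le_rpow (norm_nonneg _) ?_ hp0.le
      have := (hf i j).2
      rw [h1] at this
      calc ‖f i - f j‖ ≤ D * s * (‖u - v‖ * c) := this
        _ = D * ‖u - v‖ * σ := by rw [hσ]; ring

end Vale.Agent.Lib.P249
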