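import Mathlib

/-!
# Finitely many simple functions in `L_p(μ)` live isometrically in a finite `ℓ_p`
-/

namespace Vale.Agent.Lib.P249

open MeasureTheory Finset
open scoped ENNReal

variable {Ω : Type*} [MeasurableSpace Ω]

/-- joint simple function -/
def joint {n : ℕ} (g : Fin n → SimpleFunc Ω ℝ) : SimpleFunc Ω (Fin n → ℝ) where
  toFun ω i := g i ω
  measurableSet_fiber' r := by
    have h : (fun ω i => g i ω) ⁻¹' {r} = ⋂ i, (g i) ⁻¹' {r i} := by
      ext ω
      simp [funext_iff]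
    rw [h]
    exact MeasurableSet.iInter (fun i => (g i).measurableSet_fiber (r i))
  finite_range' := by
    refine (Set.Finite.pi (fun i => (g i).finite_range)).subset ?_
    rintro _ ⟨ω, rfl⟩
    simp [Set.mem_pi]

lemma joint_apply {n : ℕ} (g : Fin n → SimpleFunc Ω ℝ) (ω : Ω) (i : Fin n) : joint g ω i = g i ω := rfl

lemma lintegral_joint {n : ℕ} (g : Fin n → SimpleFunc Ω ℝ) (μ : Measure Ω) (p : ℝ) (i j : Fin n) :
    ∫⁻ ω, ‖g i ω - g j ω‖ₑ ^ p ∂μ
      = ∑ r ∈ (joint g).range, ‖r i - r j‖ₑ ^ p * μ ((joint g) ⁻¹' {r}) := by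
  have h := SimpleFunc.map_lintegral (μ := μ) (fun r : Fin n → ℝ => ‖r i - r j‖ₑ ^ p) (joint g)
  rw [← h, ← SimpleFunc.lintegral_eq_lintegral]
  rfl

lemma simple_to_finite (μ : Measure Ω) (p : ℝ) (hp : 1 ≤ p) {n : ℕ} (g : Fin n → SimpleFunc Ω ℝ)
    (hg : ∀ i, MemLp (g i) (ENNReal.ofReal p) μ) :
    ∃ a : Fin n → ↥(joint g).range → ℝ, ∀ i j,
      (eLpNorm (⇑(g i) - ⇑(g j)) (ENNReal.ofReal p) μ).toReal
        = (∑ k, |a i k - a j k| ^ p) ^ (1 / p) := by
  have hp0 : 0 < p := by linarith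
  have hq : (ENNReal.ofReal p).toReal = p := ENNReal.toReal_ofReal hp0.le
  have hq0 : ENNReal.ofReal p ≠ 0 := by
    simpa using hp0
  have hqt : ENNReal.ofReal p ≠ ∞ := ENNReal.ofReal_ne_top
  refine ⟨fun i r => r.1 i * (μ ((joint g) ⁻¹' {r.1})).toReal ^ (1 / p), fun i j => ?_⟩
  have hfin : ∀ r ∈ (joint g).range, ‖r i - r j‖ₑ ^ p * μ ((joint g) ⁻¹' {r}) ≠ ∞ := by
    intro r _
    by_cases hr : r i = r j
    · simp [hr, hp0]
    · have hex : ∃ l, r l ≠ 0 := by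
        by_contra hcon
        push Not at hcon
        exact hr (by rw [hcon i, hcon j])
      obtain ⟨l, hl⟩ := hex
      have h1 : μ ((joint g) ⁻¹' {r}) ≤ μ ((g l) ⁻¹' {r l}) := by
        refine measure_mono ?_
        intro ω hω
        simp only [Set.mem_preimage, Set.mem_singleton_iff] at hω ⊢
        rw [← hω]
        rfl
      have h2 := SimpleFunc.measure_preimage_lt_top_of_memLp hq0 hqt (g l) (hg l) (r l) hl
      refine ENNReal.mul_ne_top ?_ (lt_of_le_of_lt h1 h2).ne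
      exact ENNReal.rpow_ne_top_of_nonneg hp0.le enorm_ne_top
  rw [eLpNorm_eq_eLpNorm' hq0 hqt, hq]
  simp only [eLpNorm', Pi.sub_apply]
  rw [lintegral_joint, ← ENNReal.toReal_rpow, ENNReal.toReal_sum hfin]
  congr 1
  rw [← Finset.sum_coe_sort]
  refine Finset.sum_congr rfl (fun r _ => ?_)
  have hm : 0 ≤ (μ ((joint g) ⁻¹' {r.1})).toReal := ENNReal.toReal_nonneg
  rw [ENNReal.toReal_mul, ← ENNReal.toReal_rpow, toReal_enorm, Real.norm_eq_abs, ← sub_mul,
    abs_mul, Real.mul_rpow (abs_nonneg _) (abs_nonneg _), abs_of_nonneg (Real.rpow_nonneg hm _),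
    ← Real.rpow_mul hm, one_div_mul_cancel hp0.ne', Real.rpow_one]

end Vale.Agent.Lib.P249
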