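import Mathlib
import Vale.Agent.Lib.P249.Simple

/-!
# Finitely many simple functions in `L_p(μ)`: distances and the norm of the maximum
-/

namespace Vale.Agent.Lib.P249

open MeasureTheory Finset
open scoped ENNReal

variable {Ω : Type*} [MeasurableSpace Ω]

lemma lintegral_joint_map {n : ℕ} (g : Fin n → SimpleFunc Ω ℝ) (μ : Measure Ω) (p : ℝ)
    (φ : (Fin n → ℝ) → ℝ) :
    ∫⁻ ω, ‖φ (fun i => g i ω)‖ₑ ^ p ∂μ
      = ∑ r ∈ (joint g).range, ‖φ r‖ₑ ^ p * μ ((joint g) ⁻¹' {r}) := by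
  have h := SimpleFunc.map_lintegral (μ := μ) (fun r : Fin n → ℝ => ‖φ r‖ₑ ^ p) (joint g)
  rw [← h, ← SimpleFunc.lintegral_eq_lintegral]
  rfl

lemma simple_to_finite_max (μ : Measure Ω) (p : ℝ) (hp : 1 ≤ p) {n : ℕ}
    (g : Fin n → SimpleFunc Ω ℝ) (hg : ∀ i, MemLp (g i) (ENNReal.ofReal p) μ) :
    ∃ (a : Fin n → ↥(joint g).range → ℝ) (W : ↥(joint g).range → ℝ),
      (∀ k, 0 ≤ W k) ∧ (∀ i k, |a i k| ^ p ≤ W k) ∧
      (∑ k, W k = (eLpNorm (fun ω => ⨆ i, |g i ω|) (ENNReal.ofReal p) μ).toReal ^ p) ∧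
      ∀ i j, (eLpNorm (⇑(g i) - ⇑(g j)) (ENNReal.ofReal p) μ).toReal
        = (∑ k, |a i k - a j k| ^ p) ^ (1 / p) := by
  have hp0 : 0 < p := by linarith
  have hq : (ENNReal.ofReal p).toReal = p := ENNReal.toReal_ofReal hp0.le
  have hq0 : ENNReal.ofReal p ≠ 0 := by
    simpa using hp0
  have hqt : ENNReal.ofReal p ≠ ∞ := ENNReal.ofReal_ne_top
  have hmeas : ∀ r : Fin n → ℝ, (∃ l, r l ≠ 0) → μ ((joint g) ⁻¹' {r}) ≠ ∞ := by
    rintro r ⟨l, hl⟩
    have h1 : μ ((joint g) ⁻¹' {r}) ≤ μ ((g l) ⁻¹' {r l}) := by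
      refine measure_mono ?_
      intro ω hω
      simp only [Set.mem_preimage, Set.mem_singleton_iff] at hω ⊢
      rw [← hω]
      rfl
    have h2 := SimpleFunc.measure_preimage_lt_top_of_memLp hq0 hqt (g l) (hg l) (r l) hl
    exact (lt_of_le_of_lt h1 h2).ne
  have hfin : ∀ φ : (Fin n → ℝ) → ℝ, (∀ r, φ r ≠ 0 → ∃ l, r l ≠ 0) →
      ∀ r ∈ (joint g).range, ‖φ r‖ₑ ^ p * μ ((joint g) ⁻¹' {r}) ≠ ∞ := by
    intro φ hφ r _
    by_cases hr : φ r = 0
    · simp [hr, hp0]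
    · exact ENNReal.mul_ne_top (ENNReal.rpow_ne_top_of_nonneg hp0.le enorm_ne_top)
        (hmeas r (hφ r hr))
  -- general formula
  have hgen : ∀ φ : (Fin n → ℝ) → ℝ, (∀ r, φ r ≠ 0 → ∃ l, r l ≠ 0) →
      (eLpNorm (fun ω => φ (fun i => g i ω)) (ENNReal.ofReal p) μ).toReal
        = (∑ k : ↥(joint g).range, |φ k.1| ^ p * (μ ((joint g) ⁻¹' {k.1})).toReal) ^ (1 / p) := by
    intro φ hφ
    rw [eLpNorm_eq_eLpNorm' hq0 hqt, hq]
    simp only [eLpNorm']
    rw [lintegral_joint_map, ← ENNReal.toReal_rpow, ENNReal.toReal_sum (hfin φ hφ)]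
    congr 1
    rw [← Finset.sum_coe_sort]
    refine Finset.sum_congr rfl (fun r _ => ?_)
    rw [ENNReal.toReal_mul, ← ENNReal.toReal_rpow, toReal_enorm, Real.norm_eq_abs]
  have hm : ∀ k : ↥(joint g).range, 0 ≤ (μ ((joint g) ⁻¹' {k.1})).toReal :=
    fun k => ENNReal.toReal_nonneg
  have hsup0 : ∀ r : Fin n → ℝ, 0 ≤ ⨆ i, |r i| := fun r => Real.iSup_nonneg (fun i => abs_nonneg _)
  refine ⟨fun i r => r.1 i * (μ ((joint g) ⁻¹' {r.1})).toReal ^ (1 / p),
    fun r => (⨆ i, |r.1 i|) ^ p * (μ ((joint g) ⁻¹' {r.1})).toReal, ?_, ?_, ?_, ?_⟩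
  · intro k
    exact mul_nonneg (Real.rpow_nonneg (hsup0 _) p) (hm k)
  · intro i k
    rw [abs_mul, Real.mul_rpow (abs_nonneg _) (abs_nonneg _),
      abs_of_nonneg (Real.rpow_nonneg (hm k) _), ← Real.rpow_mul (hm k),
      one_div_mul_cancel hp0.ne', Real.rpow_one]
    refine mul_le_mul_of_nonneg_right ?_ (hm k)
    refine Real.rpow_le_rpow (abs_nonneg _) ?_ hp0.le
    exact le_ciSup (f := fun i => |k.1 i|) (Set.finite_range _).bddAbove i
  · have h := hgen (fun r => ⨆ i, |r i|) (by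
      intro r hr
      by_contra hcon
      push Not at hcon
      apply hr
      simp [hcon])
    simp only at h
    rw [h, ← Real.rpow_mul, one_div_mul_cancel hp0.ne', Real.rpow_one]
    · refine Finset.sum_congr rfl (fun k _ => ?_)
      rw [abs_of_nonneg (hsup0 _)]
    · exact Finset.sum_nonneg (fun k _ => mul_nonneg (Real.rpow_nonneg (abs_nonneg _) p) (hm k))
  · intro i j
    have h := hgen (fun r => r i - r j) (by
      intro r hr
      by_contra hcon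
      push Not at hcon
      apply hr
      rw [hcon i, hcon j, sub_zero])
    have e : (fun ω => (fun r : Fin n → ℝ => r i - r j) (fun i => g i ω)) = ⇑(g i) - ⇑(g j) := by
      ext ω
      rfl
    rw [e] at h
    rw [h]
    congr 1
    refine Finset.sum_congr rfl (fun k _ => ?_)
    rw [← sub_mul, abs_mul, Real.mul_rpow (abs_nonneg _) (abs_nonneg _),
      abs_of_nonneg (Real.rpow_nonneg (hm k) _), ← Real.rpow_mul (hm k),
      one_div_mul_cancel hp0.ne', Real.rpow_one]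

end Vale.Agent.Lib.P249
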